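import Vale.Agent.P004K.St2
import Vale.Agent.P027H.Add

/-! # P004K, block GM: the invariant `j`, degrees, good models -/

set_option autoImplicit false
set_option linter.all false

open Polynomial

noncomputable section

namespace Vale.Agent.P004K

open P027H

namespace Gm

variable {Λ Λ' M : Submodule ℤ ℂ} {c : ℂ}

theorem disc_ne (h : IsLat Λ) : g2 Λ ^ 3 - 27 * g3 Λ ^ 2 ≠ 0 := fun e =>
  h.disc_ne (by linear_combination (-1 / 16) * e)

theorem jL_hom (h : Hom c Λ Λ') : jL Λ' = jL Λ := by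
  have hc := pow_ne_zero 12 (inv_ne_zero h.1)
  rw [jL, jL, h.g2, h.g3, ← mul_div_mul_left (1728 * g2 Λ ^ 3) _ hc]
  congr 1 <;> ring

theorem mem_inv (hc : c ≠ 0) {z : ℂ} : z ∈ scl c⁻¹ Λ ↔ c * z ∈ Λ := by rw [mem_scl, inv_inv]

theorem hom_inv (hc : c ≠ 0) (Λ : Submodule ℤ ℂ) : Hom c (scl c⁻¹ Λ) Λ :=
  ⟨hc, fun _ => mem_inv hc⟩

/-- the area -/
def ar (Λ : Submodule ℤ ℂ) : ℝ := ZLattice.covolume Λ

theorem ar_eq (L : PeriodPair) : ar L.lattice = |L.ω₁.re * L.ω₂.im - L.ω₂.re * L.ω₁.im| *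
    MeasureTheory.volume.real (ZSpan.fundamentalDomain Complex.basisOneI) := by
  rw [ar, ZLattice.covolume_eq_det_mul_measureReal _ _ L.latticeBasis Complex.basisOneI,
    Module.Basis.det_apply, Matrix.det_fin_two]
  simp [Module.Basis.toMatrix_apply]

theorem ar_pos (h : IsLat Λ) : 0 < ar Λ := by
  obtain ⟨L, rfl⟩ := h
  exact ZLattice.covolume_pos _ _

theorem ar_hom (h : Hom c Λ Λ') (hΛ : IsLat Λ) : ar Λ' = Complex.normSq c * ar Λ := by
  obtain ⟨L, rfl⟩ := hΛ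
  have hc := h.1
  let L' : PeriodPair := ⟨c * L.ω₁, c * L.ω₂, by
    rw [LinearIndependent.pair_iff]
    intro s t hst
    refine LinearIndependent.pair_iff.1 L.indep s t (mul_left_cancel₀ h.1 ?_)
    simp only [Complex.real_smul] at hst ⊢
    linear_combination hst⟩
  have e : Λ' = L'.lattice := h.unique ⟨hc, fun z => by
    rw [PeriodPair.mem_lattice, PeriodPair.mem_lattice]
    refine exists₂_congr fun m n => ⟨fun e => ?_, fun e => mul_left_cancel₀ hc ?_⟩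
    · rw [← e]
      simp only [L']
      ring
    · rw [← e]
      simp only [L']
      ring⟩
  rw [e, ar_eq, ar_eq, ← mul_assoc, ← abs_of_nonneg (Complex.normSq_nonneg c), ← abs_mul]
  congr 2
  simp only [L', Complex.mul_re, Complex.mul_im, Complex.normSq_apply]
  ring

theorem ar_div (hΛ : IsLat Λ) (hM : IsLat M) (h : Λ ≤ M) :
    ar Λ / ar M = Λ.toAddSubgroup.relIndex M.toAddSubgroup := by
  obtain ⟨L, rfl⟩ := hΛ
  obtain ⟨L', rfl⟩ := hM
  exact ZLattice.covolume_div_covolume_eq_relIndex' _ _ h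

theorem idx_pos (hΛ : IsLat Λ) (hM : IsLat M) (h : Λ ≤ M) :
    0 < Λ.toAddSubgroup.relIndex M.toAddSubgroup := by
  have := div_pos (ar_pos hΛ) (ar_pos hM)
  rw [ar_div hΛ hM h] at this
  exact_mod_cast this

/-- a sublattice has finite exponent -/
theorem exists_exp (hΛ : IsLat Λ) (hM : IsLat M) (h : Λ ≤ M) :
    ∃ n : ℕ, 0 < n ∧ ∀ z ∈ M, (n : ℂ) * z ∈ Λ :=
  ⟨_, idx_pos hΛ hM h, fun z hz => by
    rw [← nsmul_eq_mul]
    exact Λ.toAddSubgroup.nsmul_relIndex_mem (K := M.toAddSubgroup) hz⟩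

theorem dg_eq (hΛ : IsLat Λ) (hΛ' : IsLat Λ') (hc : c ≠ 0) (h : ∀ z ∈ Λ, c * z ∈ Λ') :
    (dg c Λ Λ' : ℝ) = ar Λ / ar Λ' * Complex.normSq c := by
  have k := (hom_inv hc Λ').symm.isLat hΛ'
  have := (ar_pos k).ne'
  have := (Complex.normSq_pos.2 hc).ne'
  rw [dg, ← ar_div hΛ k fun z hz => (mem_inv hc).2 (h z hz), ar_hom (hom_inv hc Λ') k]
  field_simp

theorem int4 {R : Type} [CommRing R] [Algebra R ℂ] {t : ℂ} (a b c d : R)
    (e : t ^ 4 + (algebraMap R ℂ a * t ^ 3 + algebraMap R ℂ b * t ^ 2 + algebraMap R ℂ c * t +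
      algebraMap R ℂ d) = 0) : IsIntegral R t :=
  ⟨X ^ 4 + (C a * X ^ 3 + C b * X ^ 2 + C c * X + C d),
    monic_X_pow_add (degree_cubic_le.trans_lt (by decide)), by
      simpa [eval₂_add, eval₂_mul, eval₂_pow] using e⟩

/-- integrally closed subrings -/
def Cl (R : Subring ℂ) : Prop := ∀ t a b c d, a ∈ R → b ∈ R → c ∈ R → d ∈ R →
  t ^ 4 + (a * t ^ 3 + b * t ^ 2 + c * t + d) = 0 → t ∈ R

theorem mem_of_int (A : ValuationSubring ℂ) {t : ℂ} (h : IsIntegral A t) : t ∈ A := by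
  obtain ⟨y, rfl⟩ := (IsIntegrallyClosed.isIntegral_iff (K := ℂ)).1 h
  exact y.2

theorem cl_val (A : ValuationSubring ℂ) : Cl A.toSubring := fun t a b c d ha hb hc hd e =>
  mem_of_int A (int4 (R := A) ⟨a, ha⟩ ⟨b, hb⟩ ⟨c, hc⟩ ⟨d, hd⟩ e)

theorem cl_alg : Cl (algebraicClosure ℚ ℂ).toSubring := fun t a b c d ha hb hc hd e =>
  have : Algebra.IsIntegral ℚ (algebraicClosure ℚ ℂ) :=
    (algebraicClosure.isAlgebraic ℚ ℂ).isIntegral
  mem_algebraicClosure_iff'.2 (isIntegral_trans (A := algebraicClosure ℚ ℂ) t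
    (int4 (R := algebraicClosure ℚ ℂ) ⟨a, ha⟩ ⟨b, hb⟩ ⟨c, hc⟩ ⟨d, hd⟩ e))

theorem root (n : ℕ) (a b c d : ℂ) (hn : 3 < n ∨ a = 0 ∧ n = 3) :
    ∃ t : ℂ, t ^ n + (a * t ^ 3 + b * t ^ 2 + c * t + d) = 0 := by
  have h : (C a * X ^ 3 + C b * X ^ 2 + C c * X + C d : ℂ[X]).degree < n := by
    rcases hn with h | ⟨rfl, rfl⟩
    · exact degree_cubic_le.trans_lt (by exact_mod_cast h)
    · rw [map_zero, zero_mul, zero_add]
      exact degree_quadratic_le.trans_lt (by decide)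
  obtain ⟨t, ht⟩ := Complex.exists_root (f := X ^ n + (C a * X ^ 3 + C b * X ^ 2 + C c * X + C d))
    (by
      rw [degree_add_eq_left_of_degree_lt (by rwa [degree_X_pow]), degree_X_pow]
      exact_mod_cast (by omega : 0 < n))
  exact ⟨t, by simpa using ht⟩

/-- a model with given invariant -/
theorem model (A : ValuationSubring ℂ) {j : ℂ} (hj : j ∈ A) : ∃ W : WeierstrassCurve ℂ,
    A.valuation W.Δ = 1 ∧ W.c₄ ^ 3 = j * W.Δ ∧ ∀ R : Subring ℂ, Cl R → j ∈ R →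
      (A.valuation 3 = 1 ∨ (2⁻¹ : ℂ) ∈ R) →
      W.a₁ ∈ R ∧ W.a₂ ∈ R ∧ W.a₃ ∈ R ∧ W.a₄ ∈ R ∧ W.a₆ ∈ R := by
  have le := fun {z} => A.valuation_le_one_iff z
  have j1 := le.2 hj
  by_cases h3 : A.valuation 3 = 1
  · obtain ⟨s, hs⟩ := root 4 (-72) 1728 (-13824 - j) (27 * j) (by simp)
    obtain ⟨t, rfl⟩ := IsAlgClosed.exists_pow_nat_eq s (n := 3) (by decide)
    have k : ∀ R : Subring ℂ, Cl R → j ∈ R → t ∈ R := fun R hR h =>
      hR t 0 0 (-t ^ 3) 0 (zero_mem _) (zero_mem _) (neg_mem (hR _ _ _ _ _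
        (neg_mem (ofNat_mem R 72)) (ofNat_mem R 1728) (sub_mem (neg_mem (ofNat_mem R 13824)) h)
        (mul_mem (ofNat_mem R 27) h) hs)) (zero_mem _) (by ring)
    have e : (⟨t, 0, 1, 0, 0⟩ : WeierstrassCurve ℂ).Δ = t ^ 3 - 27 := by
      simp only [WeierstrassCurve.Δ, WeierstrassCurve.b₂, WeierstrassCurve.b₄, WeierstrassCurve.b₆,
        WeierstrassCurve.b₈]
      ring
    refine ⟨⟨t, 0, 1, 0, 0⟩, ?_, ?_, fun R hR h _ =>
      ⟨k R hR h, zero_mem _, one_mem _, zero_mem _, zero_mem _⟩⟩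
    · rw [e]
      have t1 : t ^ 3 - 27 ∈ A := sub_mem (pow_mem (k _ (cl_val A) hj) 3) (ofNat_mem A 27)
      generalize t ^ 3 = s at hs t1
      obtain ⟨u, rfl⟩ : ∃ u, s = u + 27 := ⟨s - 27, by ring⟩
      rw [add_sub_cancel_right] at t1 ⊢
      have e2 : u * (j - u ^ 3 - 36 * u ^ 2 - 270 * u - 756) = 3 ^ 6 := by linear_combination -hs
      have e3 := congrArg A.valuation e2
      rw [map_mul, map_pow, h3, one_pow] at e3
      refine le_antisymm (le.2 t1) (not_lt.1 fun h => e3.not_lt (mul_lt_one_of_lt_of_le h (le.2 ?_)))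
      exact sub_mem (sub_mem (sub_mem (sub_mem hj (pow_mem t1 3)) (mul_mem (ofNat_mem A 36)
        (pow_mem t1 2))) (mul_mem (ofNat_mem A 270) t1)) (ofNat_mem A 756)
    · rw [e]
      simp only [WeierstrassCurve.c₄, WeierstrassCurve.b₂, WeierstrassCurve.b₄]
      linear_combination hs
  · have h2 : A.valuation 2 = 1 := by
      rw [show (2 : ℂ) = -(1 - 3) by norm_num, Valuation.map_neg]
      exact A.valuation.map_one_sub_of_lt (lt_of_le_of_ne (le.2 (ofNat_mem A 3)) h3)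
    have i2 : (2⁻¹ : ℂ) ∈ A := le.1 (by rw [map_inv₀, h2, inv_one])
    obtain ⟨s, hs⟩ := root 3 0 (3 - j * 2⁻¹ ^ 8) 3 1 (by simp)
    obtain ⟨d, hd⟩ := IsAlgClosed.exists_eq_mul_self (1 + 4 * s)
    obtain ⟨l, hl⟩ : ∃ l, l = (1 + d) / 2 := ⟨_, rfl⟩
    obtain rfl : s = l ^ 2 - l := by
      rw [hl]
      linear_combination hd / 4
    have k0 : ∀ R : Subring ℂ, Cl R → j ∈ R → (2⁻¹ : ℂ) ∈ R → l ^ 2 - l ∈ R := fun R hR h h' =>
      hR _ _ 3 1 0 (sub_mem (ofNat_mem R 3) (mul_mem h (pow_mem h' 8))) (ofNat_mem R 3) (one_mem _)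
        (zero_mem _) (by linear_combination (l ^ 2 - l) * hs)
    have k : ∀ R : Subring ℂ, Cl R → j ∈ R → (2⁻¹ : ℂ) ∈ R → l ∈ R := fun R hR h h' =>
      hR l (-1) (-(l ^ 2 - l)) 0 0 (neg_mem (one_mem _)) (neg_mem (k0 R hR h h')) (zero_mem _)
        (zero_mem _) (by ring)
    have e : (⟨0, -(1 + l), 0, l, 0⟩ : WeierstrassCurve ℂ).Δ = 2 ^ 4 * (l ^ 2 - l) ^ 2 := by
      simp only [WeierstrassCurve.Δ, WeierstrassCurve.b₂, WeierstrassCurve.b₄, WeierstrassCurve.b₆,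
        WeierstrassCurve.b₈]
      ring
    refine ⟨⟨0, -(1 + l), 0, l, 0⟩, ?_, ?_, fun R hR h h' => ?_⟩
    · rw [e, map_mul, map_pow, map_pow, h2, one_pow, one_mul]
      have t1 : l ^ 2 - l ∈ A := k0 _ (cl_val A) hj i2
      generalize l ^ 2 - l = u at hs t1
      have e2 : u * (-u ^ 2 - (3 - j * 2⁻¹ ^ 8) * u - 3) = 1 := by linear_combination -hs
      have e3 := congrArg A.valuation e2
      rw [map_mul, map_one] at e3
      rw [le_antisymm (le.2 t1) (not_lt.1 fun h => e3.not_lt (mul_lt_one_of_lt_of_le h (le.2 ?_))),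
        one_pow]
      exact sub_mem (sub_mem (neg_mem (pow_mem t1 2)) (mul_mem (sub_mem (ofNat_mem A 3)
        (mul_mem hj (pow_mem i2 8))) t1)) (ofNat_mem A 3)
    · rw [e]
      simp only [WeierstrassCurve.c₄, WeierstrassCurve.b₂, WeierstrassCurve.b₄]
      linear_combination 4096 * hs
    · have := k R hR h (h'.resolve_left h3)
      exact ⟨zero_mem _, neg_mem (add_mem (one_mem _) this), zero_mem _, this, zero_mem _⟩

end Gm

open Gm

theorem jh : JH := fun Λ Λ' h h' => by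
  refine ⟨fun e => ?_, fun ⟨μ, k⟩ => (jL_hom k).symm⟩
  have d := disc_ne h
  have d' := disc_ne h'
  rw [jL, jL, div_eq_div_iff d d'] at e
  have e1 : g2 Λ ^ 3 * g3 Λ' ^ 2 = g2 Λ' ^ 3 * g3 Λ ^ 2 := by linear_combination (-1 / 46656) * e
  suffices ∃ u : ℂ, u ≠ 0 ∧ g2 Λ' = u ^ 2 * g2 Λ ∧ g3 Λ' = u ^ 3 * g3 Λ by
    obtain ⟨u, u0, u2, u3⟩ := this
    obtain ⟨μ, rfl⟩ := IsAlgClosed.exists_eq_mul_self u
    have m0 := inv_ne_zero (left_ne_zero_of_mul u0)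
    have k := hom_scl m0 Λ
    refine ⟨_, h'.ext_g (k.isLat h) ?_ ?_ ▸ k⟩
    · rw [k.g2, u2, inv_inv]
      ring
    · rw [k.g3, u3, inv_inv]
      ring
  by_cases a : g2 Λ = 0
  · have b : g3 Λ ≠ 0 := fun b => d (by rw [a, b]; ring)
    have a' : g2 Λ' = 0 := by simpa [a, b] using e1
    have b' : g3 Λ' ≠ 0 := fun b => d' (by rw [a', b]; ring)
    obtain ⟨u, hu⟩ := IsAlgClosed.exists_pow_nat_eq (g3 Λ' / g3 Λ) (n := 3) (by decide)
    refine ⟨u, fun e => div_ne_zero b' b (by rw [← hu, e]; ring), by rw [a, a', mul_zero], ?_⟩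
    rw [hu, div_mul_cancel₀ _ b]
  by_cases b : g3 Λ = 0
  · have b' : g3 Λ' = 0 := by simpa [a, b] using e1
    have a' : g2 Λ' ≠ 0 := fun a => d' (by rw [a, b']; ring)
    obtain ⟨u, hu⟩ := IsAlgClosed.exists_pow_nat_eq (g2 Λ' / g2 Λ) (n := 2) (by decide)
    refine ⟨u, fun e => div_ne_zero a' a (by rw [← hu, e]; ring), ?_, by rw [b, b', mul_zero]⟩
    rw [hu, div_mul_cancel₀ _ a]
  have a' : g2 Λ' ≠ 0 := fun a' => d' (by
    have : g3 Λ' = 0 := by simpa [a, a'] using e1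
    rw [a', this]
    ring)
  have b' : g3 Λ' ≠ 0 := fun b' => a' (by simpa [b, b'] using e1)
  refine ⟨g2 Λ * g3 Λ' / (g2 Λ' * g3 Λ), div_ne_zero (mul_ne_zero a b') (mul_ne_zero a' b), ?_, ?_⟩
  · field_simp
    linear_combination -e1
  · field_simp
    linear_combination -e1

theorem idx : IDX := fun Λ Λ' h h' =>
  ⟨_, div_pos (ar_pos h) (ar_pos h'), fun _ hc k => dg_eq h h' hc k⟩

theorem gm1 : GM1 := fun A Λ h hj => by
  obtain ⟨W, h1, h2, h3⟩ := model A hj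
  have h0 : W.Δ ≠ 0 := fun e => by simp [e] at h1
  have e : (W.c₄ / 12) ^ 3 - 27 * (W.c₆ / 216) ^ 2 = W.Δ := by
    linear_combination (-1 / 1728) * W.c_relation
  obtain ⟨Λ', l, e2, e3⟩ := exists_lat (a := W.c₄ / 12) (b := W.c₆ / 216) fun k => h0 (by
    linear_combination -e - 16 * k)
  obtain ⟨μ, k⟩ := (jh Λ Λ' h l).1 (by
    rw [jL.eq_1 Λ', e2, e3, e, eq_div_iff h0]
    linear_combination -h2)
  refine ⟨μ, Λ', W, k, ⟨l, h3 _ (cl_val A) hj ?_, h1, e2, e3⟩, fun a => ?_⟩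
  · by_cases h3 : A.valuation 3 = 1
    · exact Or.inl h3
    · refine Or.inr ((A.valuation_le_one_iff _).1 ?_)
      rw [map_inv₀, show (2 : ℂ) = -(1 - 3) by norm_num, Valuation.map_neg,
        A.valuation.map_one_sub_of_lt (lt_of_le_of_ne
          ((A.valuation_le_one_iff _).2 (ofNat_mem A 3)) h3), inv_one]
  · simp only [← mem_algebraicClosure_iff]
    exact h3 _ cl_alg (mem_algebraicClosure_iff.2 a)
      (Or.inr ((algebraicClosure ℚ ℂ).inv_mem (ofNat_mem _ 2)))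

end Vale.Agent.P004K
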