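import Vale.Agent.P004K.Gm.Val

/-! # P004K, block GM: the main theorem of complex multiplication -/

set_option autoImplicit false
set_option linter.all false

open Polynomial NumberField
open scoped Classical

noncomputable section

namespace Vale.Agent.P004K

open Vale.Agent.P022 P027H
open P027M.M (io)

namespace Gm

variable {Λ Λ' : Submodule ℤ ℂ} {c : ℂ}

theorem dg_pos (h : IsLat Λ) (h' : IsLat Λ') (hc : c ≠ 0) (k : ∀ z ∈ Λ, c * z ∈ Λ') :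
    0 < dg c Λ Λ' :=
  idx_pos h ((hom_inv hc Λ').symm.isLat h') fun z hz => (mem_inv hc).2 (k z hz)

theorem siegel (h : IsLat Λ) {N : ℕ} (hN : 0 < N) (x : Fin 4 → ℂ) (hx : ∀ i, (N : ℂ) * x i ∈ Λ) :
    ∃ k : Fin 4 → ℤ, k ≠ 0 ∧ (∀ i, k i ^ 2 ≤ N) ∧ ∑ i, k i * x i ∈ Λ := by
  have n0 : (N : ℂ) ≠ 0 := Nat.cast_ne_zero.2 hN.ne'
  have k := hom_inv n0 Λ
  obtain ⟨κ, _, r, hr, -⟩ := exists_reps0 h (k.symm.isLat h) fun z hz => (k.2 z).2 (nat_mul_mem N hz)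
  choose f hf using fun a : Fin 4 → Fin (N.sqrt + 1) => hr.ex (∑ i, ((a i : ℕ) : ℂ) * x i)
    (sum_mem fun i _ => nat_mul_mem _ ((k.2 _).2 (hx i)))
  have d := dg_eq h h n0 fun z => nat_mul_mem N
  rw [div_self (ar_pos h).ne', one_mul, Complex.normSq_natCast] at d
  obtain ⟨a, b, ne, e⟩ := Fintype.exists_ne_map_eq_of_card_lt f (by
    rw [card_reps hr, Fintype.card_fun, Fintype.card_fin, Fintype.card_fin]
    have := Nat.lt_succ_sqrt' N
    calc dg N Λ Λ = N ^ 2 := by rw [sq]; exact_mod_cast d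
      _ < ((N.sqrt + 1) ^ 2) ^ 2 := Nat.pow_lt_pow_left this two_ne_zero
      _ = _ := by ring)
  refine ⟨fun i => (a i : ℕ) - (b i : ℕ), fun e => ne (funext fun i => Fin.ext ?_), fun i => ?_,
    mem_of_eq (sub_mem (hf a) (hf b)) ?_⟩
  · exact_mod_cast sub_eq_zero.1 (congrFun e i)
  · have h1 : ((N.sqrt : ℤ)) ^ 2 ≤ N := by exact_mod_cast Nat.sqrt_le' N
    have := (a i).2
    have := (b i).2
    exact (sq_le_sq' (by beta_reduce; omega) (by beta_reduce; omega)).trans h1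
  · simp [e, sub_mul, Finset.sum_sub_distrib]

theorem many (h : IsLat Λ) (M : ℕ) : ∃ z : Fin M × Fin M → ℂ,
    (∀ i, ((2 * M + 1 : ℕ) : ℂ) * z i ∈ Λ) ∧ (∀ i k, z i + z k ∉ Λ) ∧
      ∀ i k, z i - z k ∈ Λ → i = k := by
  obtain ⟨L, rfl⟩ := h
  have n0 : ((2 * M + 1 : ℕ) : ℂ) ≠ 0 := Nat.cast_ne_zero.2 (Nat.succ_ne_zero _)
  have key : ∀ a b : ℤ, (a * L.ω₁ + b * L.ω₂) / (2 * M + 1 : ℕ) ∈ L.lattice →
      (2 * M + 1 : ℤ) ∣ a ∧ (2 * M + 1 : ℤ) ∣ b := fun a b h => by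
    obtain ⟨m, n, e⟩ := PeriodPair.mem_lattice.1 h
    rw [eq_div_iff n0] at e
    have := LinearIndependent.pair_iff.1 L.indep (a - (2 * M + 1) * m) (b - (2 * M + 1) * n) (by
      simp only [Complex.real_smul]
      push_cast at e ⊢
      linear_combination -e)
    exact ⟨⟨m, by exact_mod_cast sub_eq_zero.1 this.1⟩, ⟨n, by exact_mod_cast sub_eq_zero.1 this.2⟩⟩
  refine ⟨fun i => ((i.1 + 1 : ℕ) * L.ω₁ + (i.2 : ℕ) * L.ω₂) / (2 * M + 1 : ℕ), fun i => ?_,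
    fun i k e => ?_, fun i k e => ?_⟩
  · rw [mul_div_cancel₀ _ n0]
    exact add_mem (nat_mul_mem _ L.ω₁_mem_lattice) (nat_mul_mem _ L.ω₂_mem_lattice)
  · have := Int.le_of_dvd (by omega) (key ((i.1 : ℕ) + 1 + ((k.1 : ℕ) + 1)) ((i.2 : ℕ) + (k.2 : ℕ))
      (mem_of_eq e (by push_cast; ring))).1
    omega
  · obtain ⟨h1, h2⟩ := key ((i.1 : ℕ) - (k.1 : ℕ)) ((i.2 : ℕ) - (k.2 : ℕ))
      (mem_of_eq e (by push_cast; ring))
    have h3 := Int.eq_zero_of_abs_lt_dvd h1 (abs_lt.2 (by omega))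
    have h4 := Int.eq_zero_of_abs_lt_dvd h2 (abs_lt.2 (by omega))
    exact Prod.ext (Fin.ext (by omega)) (Fin.ext (by omega))

theorem small (h : IsLat Λ) (h' : IsLat Λ') {N : ℕ} (hN : 0 < N) (hc : c ≠ 0)
    (k : ∀ z, (N : ℂ) * z ∈ Λ → c * z ∈ Λ') : (N : ℝ) * N ≤ ar Λ / ar Λ' * Complex.normSq c := by
  have n0 : (N : ℂ) ≠ 0 := Nat.cast_ne_zero.2 hN.ne'
  have k1 : ∀ z ∈ Λ, c / N * z ∈ Λ' := fun z hz =>
    mem_of_eq (k (z / N) (by rwa [mul_div_cancel₀ _ n0])) (by ring)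
  have h1 : (1 : ℝ) ≤ dg (c / N) Λ Λ' := by exact_mod_cast dg_pos h h' (div_ne_zero hc n0) k1
  rwa [dg_eq h h' (div_ne_zero hc n0) k1, map_div₀, Complex.normSq_natCast, ← mul_div_assoc,
    one_le_div (by positivity)] at h1

theorem poly {k : Type} [Field k] {P Q P' Q' : k[X]} (h : IsCoprime P Q) (h' : IsCoprime P' Q')
    {q : ℕ} (hq : q ≠ 0) (e : P * Q' ^ q = P' ^ q * Q) (h0 : P ≠ 0) (h0' : P' ≠ 0) :
    P.natDegree = q * P'.natDegree ∧ ∀ t, Q.eval t = 0 ↔ Q'.eval t = 0 := by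
  refine ⟨?_, fun t => ?_⟩
  · rw [← natDegree_pow]
    exact le_antisymm (natDegree_le_of_dvd (h.dvd_of_dvd_mul_right ⟨_, e.symm⟩) (pow_ne_zero q h0'))
      (natDegree_le_of_dvd (h'.pow.dvd_of_dvd_mul_right ⟨_, e⟩) h0)
  have h1 := (h.map (evalRingHom t)).ne_zero_or_ne_zero
  have h2 := (h'.map (evalRingHom t)).ne_zero_or_ne_zero
  have e1 := congrArg (eval t) e
  simp only [eval_mul, eval_pow, coe_evalRingHom] at h1 h2 e1
  refine ⟨fun a => ?_, fun a => ?_⟩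
  · rw [a, mul_zero] at e1
    exact pow_eq_zero_iff hq |>.1 ((mul_eq_zero.1 e1).resolve_left (h1.resolve_right (not_not.2 a)))
  · rw [a, zero_pow hq, mul_zero] at e1
    exact (mul_eq_zero.1 e1.symm).resolve_left (pow_ne_zero q (h2.resolve_right (not_not.2 a)))

theorem Tor.mul {z : ℂ} (h : Tor Λ z) (k : ∀ z ∈ Λ, c * z ∈ Λ') : Tor Λ' (c * z) :=
  let ⟨n, hn, e⟩ := h
  ⟨n, hn, mem_of_eq (k _ e) (mul_left_comm _ _ _)⟩

theorem Tor.add {z w : ℂ} (h : Tor Λ z) (k : Tor Λ w) : Tor Λ (z + w) :=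
  let ⟨n, hn, e⟩ := h
  let ⟨m, hm, e'⟩ := k
  ⟨n * m, mul_pos hn hm, mem_of_eq (add_mem (nat_mul_mem m e) (nat_mul_mem n e'))
    (by push_cast; ring)⟩

variable {K : Type} [Field K] [NumberField K] {J : 𝓞 K →+* ℂ} (hJ : Function.Injective J)
  (hO : IsLat (lat J ⊤)) {ω : 𝓞 K} (hω : 0 < (J ω).im) {A : ValuationSubring ℂ} {σ : ℂ ≃+* ℂ}
  {q : ℕ} (hq : q ≠ 0) (hF : Fr A σ q) (hσ : ∀ a, σ (J a) = J a) {l : ℕ} (hl : l ≠ 0)
  (hv : A.valuation l < 1) {W : WeierstrassCurve ℂ} (h : Gd A Λ W)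
  (ha : IsAlgebraic ℚ W.a₁ ∧ IsAlgebraic ℚ W.a₂ ∧ IsAlgebraic ℚ W.a₃ ∧ IsAlgebraic ℚ W.a₄ ∧
    IsAlgebraic ℚ W.a₆) (hL : OLat J Λ) {φ : ℂ → ℂ} (t : Tr (σ : ℂ →+* ℂ) Λ Λ' φ)
include hJ hO hω hq hF hσ hl hv h ha hL t

/-- a multiple of the Frobenius lifts -/
theorem lift : ∃ f ≠ 0, ∃ b ≠ 0, (∀ z ∈ Λ, f * z ∈ Λ') ∧ dg f Λ Λ' = q * dg (J b) Λ Λ ∧
    ∀ z, Tor Λ z → Sk A Λ' (W.map σ) (f * z - φ (J b * z)) := by
  obtain ⟨h', F⟩ := conj_gd hF h ha t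
  have cm := fun a => (tp_tr t).cm (hL.2 a)
  simp only [hσ] at cm
  obtain ⟨w, hw, w0, n, hn, e⟩ := ex_gen hO hL
  obtain ⟨y, hy, y0, -⟩ := ex_gen hO ⟨t.lat', fun a => (cm a).1⟩
  obtain ⟨g, g0, hg⟩ : ∃ g ≠ 0, ∀ z ∈ Λ, g * z ∈ Λ' :=
    ⟨n * y / w, div_ne_zero (mul_ne_zero (Nat.cast_ne_zero.2 hn.ne') y0) w0, fun z hz => by
      obtain ⟨a, ea⟩ := e z hz
      exact mem_of_eq ((cm a).1 y hy) (by field_simp; linear_combination ea)⟩
  obtain ⟨κ, hκ⟩ : ∃ κ, κ = ar Λ / ar Λ' := ⟨_, rfl⟩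
  have κ0 : 0 < κ := hκ ▸ div_pos (ar_pos h.lat) (ar_pos t.lat')
  obtain ⟨D, hD⟩ : ∃ D, D = 2 * (1 + Complex.normSq (J ω)) := ⟨_, rfl⟩
  have D0 : 0 ≤ D := by
    have := Complex.normSq_nonneg (J ω)
    linarith
  obtain ⟨s, hs⟩ := exists_nat_gt (3 * ((κ * Complex.normSq g + q) * D))
  obtain ⟨M, hM⟩ : ∃ M, M = n * l * s := ⟨_, rfl⟩
  obtain ⟨N, hN⟩ : ∃ N, N = 2 * M + 1 := ⟨_, rfl⟩
  have N0 : 0 < N := by omega
  have n0 : (N : ℂ) ≠ 0 := Nat.cast_ne_zero.2 N0.ne'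
  have eN : (N : ℂ) = 1 + l * (2 * n * s) := by rw [hN, hM]; push_cast; ring
  have vN : A.valuation N = 1 := by
    rw [eN]
    refine A.valuation.map_one_add_of_lt ?_
    rw [map_mul]
    exact mul_lt_one_of_lt_of_le hv ((A.valuation_le_one_iff _).2
      (mul_mem (mul_mem (ofNat_mem A 2) (natCast_mem A n)) (natCast_mem A s)))
  have big : (κ * Complex.normSq g + q) * D * N < M * M := by
    have h1 : (s : ℝ) ≤ M := by
      exact_mod_cast hM ▸ Nat.le_mul_of_pos_left s (mul_pos hn (Nat.pos_of_ne_zero hl))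
    have h2 : 0 ≤ (κ * Complex.normSq g + q) * D :=
      mul_nonneg (add_nonneg (mul_nonneg κ0.le (Complex.normSq_nonneg g)) q.cast_nonneg) D0
    generalize (κ * Complex.normSq g + q) * D = C at hs h2 ⊢
    have h3 : (1 : ℝ) ≤ M := by exact_mod_cast (by exact_mod_cast (by linarith : (0 : ℝ) < M) : 0 < M)
    rw [hN]
    push_cast
    nlinarith
  have u1 : (N : ℂ) * φ (w / N) ∈ Λ' := by
    have := t.int N (w / N)
    rw [Int.cast_natCast, mul_div_cancel₀ _ n0] at this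
    exact mem_of_eq (sub_mem ((t.mem w).2 hw) this) (by ring)
  have u2 : (N : ℂ) * (g * (w / N)) ∈ Λ' := mem_of_eq (hg w hw) (by field_simp)
  obtain ⟨k, k0, k1, k2⟩ := siegel t.lat' N0
    ![g * (w / N), J ω * (g * (w / N)), -φ (w / N), J ω * -φ (w / N)] fun i => by
      fin_cases i
      exacts [u2, mem_of_eq ((cm ω).1 _ u2) (mul_left_comm _ _ _),
        mem_of_eq (neg_mem u1) (mul_neg _ _), mem_of_eq ((cm ω).1 _ (neg_mem u1))
          (by simp only [Fin.reduceFinMk, Matrix.cons_val]; ring)]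
  have bd : ∀ i j, Complex.normSq (J (k i + k j * ω)) ≤ D * N := fun i j => by
    have a : (k i : ℝ) ^ 2 ≤ N := by exact_mod_cast k1 i
    have b : (k j : ℝ) ^ 2 ≤ N := by exact_mod_cast k1 j
    simp only [hD, map_add, map_mul, map_intCast, Complex.normSq_apply, Complex.add_re,
      Complex.add_im, Complex.mul_re, Complex.mul_im, Complex.intCast_re, Complex.intCast_im]
    nlinarith [sq_nonneg (k i - k j * (J ω).re), mul_le_mul_of_nonneg_right b (sq_nonneg (J ω).re),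
      mul_le_mul_of_nonneg_right b (sq_nonneg (J ω).im),
      mul_nonneg (N.cast_nonneg (α := ℝ)) (sq_nonneg (J ω).im)]
  have nz : ∀ i j, (k i + k j * ω : 𝓞 K) = 0 → k i = 0 ∧ k j = 0 := fun i j e => by
    have a := congrArg (fun x => (J x).im) e
    have b : k j = 0 := by simpa [hω.ne'] using a
    exact ⟨by simpa [b] using e, b⟩
  have da := bd 0 1
  have db := bd 2 3
  have ne : ¬ ((k 0 + k 1 * ω : 𝓞 K) = 0 ∧ (k 2 + k 3 * ω : 𝓞 K) = 0) := fun e => k0 (by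
    funext i
    fin_cases i
    exacts [(nz _ _ e.1).1, (nz _ _ e.1).2, (nz _ _ e.2).1, (nz _ _ e.2).2])
  replace k2 : g * J (k 0 + k 1 * ω) * (w / N) - J (k 2 + k 3 * ω) * φ (w / N) ∈ Λ' :=
    mem_of_eq k2 (by simp [Fin.sum_univ_four]; ring)
  generalize (k 0 + k 1 * ω : 𝓞 K) = a at da ne k2
  generalize (k 2 + k 3 * ω : 𝓞 K) = b at db ne k2
  have hf : ∀ z ∈ Λ, g * J a * z ∈ Λ' := fun z hz => mem_of_eq (hg _ (hL.2 a z hz)) (by ring)
  have key : ∀ z, (N : ℂ) * z ∈ Λ → g * J a * z - φ (J b * z) ∈ Λ' := fun z hz => by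
    obtain ⟨x, ex⟩ := e _ hz
    have h1 : z - J (-(l * 2 * s * x)) * (w / N) ∈ Λ := mem_of_eq hz (by
      simp only [map_neg, map_mul, map_natCast, map_ofNat]
      field_simp
      linear_combination -(N : ℂ) * z * eN - l * 2 * s * ex)
    generalize -(l * 2 * s * x) = x' at h1
    refine mem_of_eq (sub_mem (sub_mem (add_mem (hf _ h1) ((cm x').1 _ k2)) ((cm (b * x')).2 (w / N)))
      ((t.sub_iff (J b * z) (J (b * x') * (w / N))).2 (mem_of_eq (hL.2 b _ h1) ?_))) ?_ <;>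
      rw [map_mul] <;> ring
  have q1 : (1 : ℝ) ≤ q := by exact_mod_cast Nat.pos_of_ne_zero hq
  have MN : (M : ℝ) * M ≤ N * N := by exact_mod_cast Nat.mul_self_le_mul_self (by omega)
  have d1 : κ * Complex.normSq (g * J a) ≤ κ * Complex.normSq g * (D * N) := by
    rw [map_mul, ← mul_assoc]
    exact mul_le_mul_of_nonneg_left da (mul_nonneg κ0.le (Complex.normSq_nonneg g))
  have d2 : q * Complex.normSq (J b) ≤ q * (D * N) := mul_le_mul_of_nonneg_left db q.cast_nonneg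
  have d3 := mul_nonneg κ0.le (Complex.normSq_nonneg (g * J a))
  have d4 := le_mul_of_one_le_left (Complex.normSq_nonneg (J b)) q1
  have J0 := fun {a} => (map_ne_zero_iff J hJ (x := a)).2
  have b0 : b ≠ 0 := fun e => by
    have := small h.lat t.lat' N0 (mul_ne_zero g0 (J0 fun e' => ne ⟨e', e⟩)) fun z hz =>
      mem_of_eq (add_mem (key z hz) ((t.mem (J b * z)).2 (by simp [e]))) (by ring)
    have := Complex.normSq_nonneg (J b)
    rw [← hκ] at *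
    linarith
  have a0 : a ≠ 0 := fun e => by
    have := small h.lat h.lat N0 (J0 b0) fun z hz => (t.mem _).1 (by simpa [e] using key z hz)
    rw [div_self (ar_pos h.lat).ne'] at this
    linarith
  have f0 := mul_ne_zero g0 (J0 a0)
  generalize g * J a = f at hf key d1 d3 f0
  obtain ⟨i1, -, ⟨P, Q, cop, dP, dQ, pq⟩, -⟩ := iso A Λ W Λ' _ f h h' f0 hf
  obtain ⟨i2, -, ⟨P', Q', cop', dP', dQ', pq'⟩, -⟩ := iso A Λ W Λ W _ h h (J0 b0) (hL.2 b)
  have i3 := (iso A Λ W Λ W _ h h n0 fun z => nat_mul_mem N).2.1.1 vN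
  have Fb := fun z hz => F (J b * z) (Tor.mul hz (hL.2 b))
  have E : P * Q' ^ q - P' ^ q * Q = 0 := by
    obtain ⟨z, z1, z2, z3⟩ := many h.lat M
    rw [← hN] at z1
    have z4 : ∀ i, ¬ Sk A Λ W (z i) := fun i e =>
      z2 i i (add_mem (i3 _ e (z1 i)) (i3 _ e (z1 i)))
    refine eq_zero_of_natDegree_lt_card_of_eval_eq_zero _ (f := fun i => xb A Λ W (z i))
      (fun i k e => ((xb_eq h (z4 i) (z4 k)).1 e).elim (fun e => z3 i k (i3 _ e ?_))
        fun e => (z2 i k (i3 _ e ?_)).elim) (fun i => ?_) ?_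
    · exact mem_of_eq (sub_mem (z1 i) (z1 k)) (mul_sub _ _ _)
    · exact mem_of_eq (add_mem (z1 i) (z1 k)) (mul_add _ _ _)
    · obtain ⟨f1, f2⟩ := Fb _ ⟨N, N0, z1 i⟩
      have s : Sk A Λ' (W.map σ) (f * z i - φ (J b * z i)) := Or.inl (key _ (z1 i))
      simp only [eval_sub, eval_mul, eval_pow]
      by_cases e : Sk A Λ W (J b * z i)
      · rw [(pq' _ (z4 i)).1.1 e, (pq _ (z4 i)).1.1 (sk_eq (sk_add h' s (f1.2 e)) (by ring)),
          zero_pow hq, mul_zero, mul_zero, sub_zero]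
      · have e' : ¬ Sk A Λ' (W.map σ) (f * z i) := fun k =>
          e (f1.1 (sk_eq (sk_sub h' k s) (by ring)))
        rw [← (pq' _ (z4 i)).2 e, ← (pq _ (z4 i)).2 e', xb_congr h' e' s, f2 e]
        ring
    · have e1 := dg_eq h.lat t.lat' f0 hf
      have e2 := dg_eq h.lat h.lat (J0 b0) (hL.2 b)
      rw [div_self (ar_pos h.lat).ne', one_mul] at e2
      rw [← hκ] at e1
      have : dg f Λ Λ' + q * dg (J b) Λ Λ < M * M := by
        rw [← Nat.cast_lt (α := ℝ)]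
        push_cast
        rw [e1, e2]
        linarith
      rw [Fintype.card_prod, Fintype.card_fin]
      refine lt_of_le_of_lt ((natDegree_sub_le _ _).trans (max_le (natDegree_mul_le.trans ?_)
        (natDegree_mul_le.trans ?_))) this <;> rw [natDegree_pow]
      · exact add_le_add dP.le (Nat.mul_le_mul_left q dQ'.le)
      · rw [add_comm]
        exact add_le_add dQ.le (Nat.mul_le_mul_left q dP'.le)
  rw [sub_eq_zero] at E
  obtain ⟨p1, p2⟩ := poly cop cop' hq E (fun e => by simp [← dP, e] at dQ)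
    fun e => by simp [← dP', e] at dQ'
  rw [dP, dP'] at p1
  have pm : ∀ z, Tor Λ z → Sk A Λ' (W.map σ) (f * z - φ (J b * z)) ∨
      Sk A Λ' (W.map σ) (f * z + φ (J b * z)) := fun z hz => by
    obtain ⟨f1, f2⟩ := Fb z hz
    by_cases e0 : Sk A Λ W z
    · exact Or.inl (sk_sub h' (i1 z e0) (f1.2 (i2 z e0)))
    have e1 : Sk A Λ' (W.map σ) (f * z) ↔ Sk A Λ W (J b * z) := by
      rw [(pq z e0).1, (pq' z e0).1, p2]
    by_cases e : Sk A Λ W (J b * z)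
    · exact Or.inl (sk_sub h' (e1.2 e) (f1.2 e))
    refine (xb_eq h' (mt e1.1 e) (mt f1.1 e)).1 (mul_right_cancel₀ (mul_ne_zero
      (mt (pq z e0).1.2 (mt e1.1 e)) (pow_ne_zero q (mt (pq' z e0).1.2 e))) ?_)
    have := congrArg (eval (xb A Λ W z)) E
    simp only [eval_mul, eval_pow] at this
    rw [← (pq' _ e0).2 e, ← (pq _ e0).2 (mt e1.1 e)] at this
    rw [f2 e]
    linear_combination this
  by_cases s : ∀ z, Tor Λ z → Sk A Λ' (W.map σ) (f * z - φ (J b * z))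
  · exact ⟨f, f0, b, b0, hf, p1, s⟩
  push Not at s
  obtain ⟨x, x1, x2⟩ := s
  have hf' : ∀ z ∈ Λ, -f * z ∈ Λ' := fun z hz => mem_of_eq (neg_mem (hf z hz)) (neg_mul _ _)
  refine ⟨-f, neg_ne_zero.2 f0, b, b0, hf', ?_, fun z hz => ?_⟩
  · rw [← p1, ← Nat.cast_inj (R := ℝ), dg_eq h.lat t.lat' f0 hf,
      dg_eq h.lat t.lat' (neg_ne_zero.2 f0) hf', Complex.normSq_neg]
  have x3 := (pm x x1).resolve_left x2
  have ad : Sk A Λ' (W.map σ) (φ (J b * (x + z)) - φ (J b * x) - φ (J b * z)) :=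
    Or.inl (mul_add (J b) x z ▸ t.add _ _)
  have z0 : Sk A Λ' (W.map σ) 0 := Or.inl (zero_mem _)
  rcases pm _ (x1.add hz) with e | e
  · rcases pm z hz with e' | e'
    · exact (x2 (sk_eq (sk_sub h' (sk_add h' e ad) e') (by ring))).elim
    · exact sk_eq (sk_sub h' z0 e') (by ring)
  · exact sk_eq (sk_sub h' (sk_add h' x3 ad) e) (by ring)

/-- the main theorem for a good model -/
theorem core {p : Ideal (𝓞 K)} (hp : p.IsMaximal) (p0 : p ≠ ⊥) {k : ℕ}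
    (hk : q = Ideal.absNorm p ^ k) (hu : ∀ a ∉ p, A.valuation (J a) = 1) :
    ∃ g, Hom g (col J (p ^ k) Λ) Λ' ∧ ∀ z, (∃ a ∉ p, J a * z ∈ Λ) → g * z - φ z ∈ Λ' := by
  obtain ⟨f, f0, b, b0, hf, d, s⟩ := lift hJ hO hω hq hF hσ hl hv h ha hL t
  obtain ⟨h', -⟩ := conj_gd hF h ha t
  have cm := fun a => (tp_tr t).cm (hL.2 a)
  simp only [hσ] at cm
  have J0 := fun {a} => (map_ne_zero_iff J hJ (x := a)).2
  have sp := fun {a : 𝓞 K} => mt (Ideal.span_singleton_eq_bot (α := 𝓞 K) (x := a)).1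
  have key : ∀ z a, a ∉ p → J a * z ∈ Λ → f * z - φ (J b * z) ∈ Λ' := fun z a ha hz => by
    have a0 : a ≠ 0 := fun e => ha (e ▸ p.zero_mem)
    refine (iso A Λ' _ Λ' _ (J a) h' h' (J0 a0) (cm a).1).2.1.1 (hu a ha) _ (s z ?_)
      (mem_of_eq (sub_mem (add_mem (hf _ hz) ((cm a).2 (J b * z))) ((t.mem (J a * (J b * z))).2
        (mem_of_eq (hL.2 b _ hz) (mul_left_comm _ _ _)))) (by ring))
    obtain ⟨x, e⟩ := Ideal.mem_span_singleton'.1 (Ideal.absNorm_mem (Ideal.span {a}))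
    refine ⟨_, Nat.pos_of_ne_zero (mt Ideal.absNorm_eq_zero_iff.1 (sp a0)),
      mem_of_eq (hL.2 x _ hz) ?_⟩
    rw [← mul_assoc, ← map_mul, e, map_natCast]
  have hF := (hom_inv f0 Λ').symm.oLat J ⟨t.lat', fun a => (cm a).1⟩
  have lF : Λ ≤ scl f⁻¹ Λ' := fun z hz => (mem_inv f0).2 (hf z hz)
  obtain ⟨F, F0, eF⟩ := eq_col hJ hO hL hF lF
  have eB : scl (J b)⁻¹ Λ = col J (Ideal.span {b}) Λ :=
    Submodule.ext fun z => (mem_inv (J0 b0)).trans hL.col_span.symm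
  have mF : ∀ z, z ∈ col J F Λ ↔ f * z ∈ Λ' := fun z => eF ▸ mem_inv f0
  replace d : Ideal.absNorm F = q * Ideal.absNorm (Ideal.span {b}) := by
    rw [← Nat.cast_inj (R := ℝ), Nat.cast_mul, dg, dg, ← ar_div h.lat hF.1 lF, eB, eF,
      ← ar_div h.lat (olat_col hL (sp b0)).1 (hL.le_col _), ar_col hJ hO hL F0,
      ar_col hJ hO hL (sp b0)] at d
    exact_mod_cast d
  obtain ⟨F₁, c1, e1⟩ := Ideal.eq_prime_pow_mul_coprime F0 p
  obtain ⟨B₁, c2, e2⟩ := Ideal.eq_prime_pow_mul_coprime (sp b0) p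
  generalize Multiset.count p _ = u at e1
  generalize Multiset.count p _ = v at e2
  have ex : ∀ I, p ⊔ I = ⊤ → ∃ a ∈ I, a ∉ p := fun I e => by
    by_contra! k
    exact hp.ne_top ((sup_eq_left.2 k).symm.trans e)
  have dv : ∀ I I' (n : ℕ), p ⊔ I = ⊤ → p ^ n * I' ≤ I → I' ≤ I := fun I I' n e k =>
    Ideal.dvd_iff_le.1 ((Ideal.isCoprime_iff_sup_eq.2 e).symm.pow_right.dvd_of_dvd_mul_left
      (Ideal.dvd_iff_le.2 k))
  have F1 : F₁ ≠ ⊥ := fun e => F0 (by rw [e1, e, Ideal.mul_bot])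
  have B1 : B₁ ≠ ⊥ := fun e => sp b0 (by rw [e2, e, Ideal.mul_bot])
  obtain ⟨a', a1, a2⟩ := ex _ c2
  obtain rfl : F₁ = B₁ := by
    obtain ⟨a, a3, a4⟩ := ex _ c1
    refine le_antisymm (dv _ _ u c2 (e1 ▸ le_of_col hJ hO hL B1 fun z hz => (mF z).2 ?_))
      (dv _ _ v c1 (e2 ▸ le_of_col hJ hO hL F1 fun z hz => hL.col_span.2 ((t.mem _).1 ?_)))
    · exact mem_of_eq (add_mem (key z a' a2 (hz _ a1)) ((t.mem _).2 (hz b (Ideal.mul_le_right
        (e2.le (Ideal.mem_span_singleton_self b)))))) (by ring)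
    · exact mem_of_eq (sub_mem ((mF z).1 fun x hx => hz x (Ideal.mul_le_right (e1.le hx)))
        (key z a a4 (hz _ a3))) (by ring)
  obtain rfl : u = k + v := by
    rw [e1, e2, hk, map_mul, map_mul, map_pow, map_pow, ← mul_assoc, ← pow_add] at d
    have h1 := mt (Ideal.absNorm_eq_zero_iff (I := p)).1 p0
    have h2 := mt (Ideal.absNorm_eq_one_iff (I := p)).1 hp.ne_top
    exact Nat.pow_right_injective (by omega)
      (mul_right_cancel₀ (mt Ideal.absNorm_eq_zero_iff.1 F1) d)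
  have b1 := J0 b0
  have H : Hom (f / J b) (col J (p ^ k) Λ) Λ' := ⟨div_ne_zero f0 b1, fun z => by
    rw [div_mul_eq_mul_div, mul_div_assoc, ← mF, e1, pow_add, mul_assoc, ← e2, mul_comm, ← col_col,
      (olat_col hL (pow_ne_zero k p0)).col_span, mul_div_cancel₀ _ b1]⟩
  refine ⟨_, H, fun z ⟨a, a3, hz⟩ => ?_⟩
  obtain ⟨e, he, e', he', ee⟩ := Ideal.isCoprime_iff_exists.1 (IsCoprime.pow_left (m := v)
    (Ideal.isCoprime_iff_sup_eq.2 (hp.1.2 _ (left_lt_sup.2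
      (mt (Ideal.span_singleton_le_iff_mem p).1 a3)))))
  obtain ⟨y, rfl⟩ := Ideal.mem_span_singleton'.1 he'
  obtain ⟨x, ex⟩ := Ideal.mem_span_singleton'.1 (e2.ge (Ideal.mul_mem_mul he a1))
  have e3 := congrArg J ee
  have e4 := congrArg J ex
  simp only [map_mul, map_add, map_one] at e3 e4
  have m1 : z - J e * z ∈ Λ := mem_of_eq (hL.2 y _ hz) (by linear_combination -z * e3)
  have m2 := key (J e * z / J b) (a * a') (mt hp.isPrime.mem_or_mem (not_or.2 ⟨a3, a2⟩))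
    (mem_of_eq (hL.2 x _ hz) (by rw [map_mul]; field_simp; linear_combination -J a * z * e4))
  rw [mul_div_cancel₀ _ b1] at m2
  exact mem_of_eq (sub_mem (add_mem m2 ((H.2 _).1 (hL.le_col _ m1))) ((t.sub_iff _ _).2 m1))
    (by ring)

omit hJ hO hq hF hσ hl hv h ha t in
theorem int_jL (int : INT) : IsIntegral ℤ (jL Λ) := by
  obtain ⟨⟨L, rfl⟩, h2⟩ := hL
  have h0 : L.ω₂ ≠ 0 := L.indep.ne_zero 1
  obtain ⟨τ, ε, hε, e⟩ : ∃ (τ : UpperHalfPlane) (ε : ℤ), ε * ε = 1 ∧ L.ω₁ = ε * τ * L.ω₂ := by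
    rcases lt_trichotomy (L.ω₁ / L.ω₂).im 0 with e | e | e
    · exact ⟨⟨-(L.ω₁ / L.ω₂), by simpa using e⟩, -1, by decide, by simp [h0]⟩
    · refine (one_ne_zero (LinearIndependent.pair_iff.1 L.indep 1 (-(L.ω₁ / L.ω₂).re) ?_).1).elim
      rw [one_smul, Complex.real_smul, Complex.ofReal_neg,
        Complex.conj_eq_iff_re.1 (Complex.conj_eq_iff_im.2 e)]
      field_simp
      ring
    · exact ⟨⟨L.ω₁ / L.ω₂, e⟩, 1, by decide, by simp [h0]⟩
  have e0 : (ε : ℂ) * ε = 1 := by exact_mod_cast hε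
  have H : Hom L.ω₂ (P027M.M.lat τ) L.lattice := ⟨h0, fun z => by
    rw [P027M.M.mem_lat, PeriodPair.mem_lattice]
    exact ⟨fun ⟨m, n, k⟩ => ⟨m * ε, n, by
      rw [e, ← k]; push_cast; linear_combination m * τ * L.ω₂ * e0⟩,
      fun ⟨m, n, k⟩ => ⟨m * ε, n, mul_left_cancel₀ h0 (by rw [← k, e]; push_cast; ring)⟩⟩⟩
  have m := fun z hz => (H.2 _).2 (mem_of_eq (h2 ω _ ((H.2 z).1 hz)) (mul_left_comm _ _ _))
  obtain ⟨a, b, e1⟩ := P027M.M.mem_lat.1 (m 1 (P027M.M.mem_lat.2 ⟨0, 1, by simp⟩))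
  obtain ⟨c, d, e2⟩ := P027M.M.mem_lat.1 (m τ (P027M.M.mem_lat.2 ⟨1, 0, by simp⟩))
  rw [Gm.jL_hom H]
  refine int τ (a, b - c, -d) (fun k => hω.ne' ?_) ?_
  · obtain rfl : a = 0 := congrArg Prod.fst k
    simpa using (congrArg Complex.im e1).symm
  · rw [P004Z.evq]
    push_cast
    linear_combination τ * e1 - e2

end Gm

open Gm

/-- **the main theorem of complex multiplication** -/
theorem mt (iq : IQ) (int : INT) : MT := fun K _ _ j hK σ g hσ P hP P0 k hg c Λ hc hΛ => by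
  obtain ⟨ω, sp, hω⟩ := iq K j hK
  obtain ⟨A, hA⟩ := exists_place hP
  obtain ⟨l, l0, hl⟩ := exists_nat P0
  have hJ : Function.Injective (JJ j) :=
    io_inj.comp (j.injective.comp RingOfIntegers.coe_injective)
  have hu : ∀ a ∉ below j P, A.valuation (JJ j a) = 1 := fun a ha =>
    (hA (RingOfIntegers.mapRingHom j a)).2.2 ha
  have hs := hσ.JJ g.2
  have p0 : below j P ≠ ⊥ := fun e => l0 (Nat.cast_eq_zero.1 (Ideal.mem_bot.1 (e.le
    (show (l : 𝓞 K) ∈ below j P from Ideal.mem_comap.2 (by rwa [map_natCast])))))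
  have hp : (below j P).IsMaximal := (Ideal.comap_isPrime _ P).isMaximal p0
  have hq := pow_ne_zero k (_root_.mt (Ideal.absNorm_eq_zero_iff (I := below j P)).1 p0)
  have hF := fr_of hP P0 hA hσ hq hg
  have hv : A.valuation l < 1 := lt_of_le_of_ne ((A.valuation_le_one_iff _).2 (natCast_mem A l))
    fun e => (hA l).2.1 (by simpa using e) hl
  generalize below j P = p at *
  generalize JJ j = J at *
  have hO : IsLat (lat J ⊤) := by
    rw [show lat J ⊤ = P027M.M.lat ⟨J ω, hω⟩ from Submodule.ext fun z => ?_]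
    · exact P027M.M.isLat _
    rw [P027M.M.mem_lat]
    refine ⟨?_, fun ⟨m, n, e⟩ => ⟨m * ω + n, trivial, by simpa using e⟩⟩
    rintro ⟨a, -, rfl⟩
    obtain ⟨u, v, rfl⟩ := sp a
    exact ⟨v, u, by simp [add_comm]⟩
  have c0 : c ≠ 0 := fun e => hc (by simp [e])
  have c1 : (c : ℂ) ≠ 0 := Nat.cast_ne_zero.2 c0
  obtain ⟨L, hL, l1, l2⟩ : ∃ L, OLat J L ∧ L ≤ Λ ∧ ∀ z ∈ Λ, J c * z ∈ L := by
    have h1 : col J ⊤ Λ ≤ Λ := fun z hz => by simpa using hz 1 trivial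
    have h2 : ∀ z ∈ Λ, J c * z ∈ col J ⊤ Λ := fun z hz a _ =>
      mem_of_eq (hΛ.mul a z hz) (by rw [map_mul]; ring)
    refine ⟨col J ⊤ Λ, ⟨((hom_scl c1 Λ).isLat hΛ.lat).of_between (fun z hz => ?_)
      (Nat.pos_of_ne_zero c0) fun z hz => ((hom_scl c1 Λ).2 z).1 (h1 hz), fun a z hz b _ =>
        mem_of_eq (hz (b * a) trivial) (by rw [map_mul, mul_assoc])⟩, h1, h2⟩
    exact mem_of_eq (h2 _ hz) (by rw [map_natCast, mul_inv_cancel_left₀ c1])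
  have i := int_jL hω hL int
  obtain ⟨μ, L₀, W, H, h, ha⟩ := gm1 A L hL.1 (mem_of_int A i.tower_top)
  obtain ⟨L₁, φ, t⟩ := h.lat.exists_tr σ
  obtain ⟨γ, H1, e⟩ := core hJ hO hω hq hF hs l0 hv h (ha (i.tower_top (A := ℚ)).isAlgebraic)
    (H.oLat J hL) t hp p0 rfl hu
  have H2 := (H.col J (p ^ k)).trans H1
  have T := ((tp_tr t).homL H).homR H2.symm
  have e1 : ∀ z, (∃ a ∉ p, J a * z ∈ Λ) → (γ * μ)⁻¹ * φ (μ * z) - z ∈ col J (p ^ k) L :=
    fun z ⟨a, ha, hz⟩ => (H2.2 _).2 (mem_of_eq (neg_mem (e (μ * z) ⟨c * a,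
      _root_.mt hp.isPrime.mem_or_mem (not_or.2 ⟨hc, ha⟩), mem_of_eq ((H.2 _).1 (l2 _ hz))
        (by rw [map_mul]; ring)⟩)) (by rw [mul_sub, mul_inv_cancel_left₀ H2.1]; ring))
  have e2 : ∀ z ∈ Λ, ∃ a ∉ p, J a * z ∈ Λ := fun z hz => ⟨1, hp.isPrime.one_notMem, by simpa using hz⟩
  have s1 : col J (p ^ k) L ≤ st J (p ^ k) Λ := fun z hz a ha _ => l1 (hz a ha)
  refine ⟨_, T.sup' l1 hΛ.lat s1 fun z => ⟨fun hz => ?_, fun hz => mem_of_eq (add_mem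
    (s1 (e1 z (e2 z hz))) fun a _ k => k z hz) (sub_add_cancel _ _).symm⟩, fun z hz => s1 (e1 z hz)⟩
  obtain ⟨a, ha, b, hb, ee⟩ := Ideal.isCoprime_iff_exists.1 (IsCoprime.pow_left (m := k)
    (Ideal.isCoprime_iff_sup_eq.2 (hp.1.2 _ (left_lt_sup.2 (_root_.mt
      (Ideal.span_singleton_le_iff_mem p (x := (c : 𝓞 K) * c)).1
      (_root_.mt hp.isPrime.mem_or_mem (not_or.2 ⟨hc, hc⟩)))))))
  obtain ⟨b, rfl⟩ := Ideal.mem_span_singleton'.1 hb
  have e3 := congrArg J ee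
  simp only [map_mul, map_add, map_one] at e3
  obtain ⟨y, hy⟩ : ∃ y, y = (γ * μ)⁻¹ * φ (μ * z) := ⟨_, rfl⟩
  rw [← hy] at hz
  have m1 := hz a ha fun w hw => mem_of_eq (sub_mem hw (hΛ.mul (b * c) w hw))
    (by simp only [map_mul]; linear_combination w * e3)
  have m2 : y - J a * y ∈ col J (p ^ k) L := fun x hx => mem_of_eq (l2 _ (hz (c * (b * x))
    (Ideal.mul_mem_left _ _ (Ideal.mul_mem_left _ _ hx)) (hΛ.mul _)))
    (by simp only [map_mul]; linear_combination -J x * y * e3)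
  have m3 := (T.sub_iff z (J a * y)).1 (mem_of_eq (sub_mem m2 (e1 _ (e2 _ m1))) (by rw [← hy]; ring))
  exact mem_of_eq (add_mem (l1 m3) m1) (by ring)

end Vale.Agent.P004K
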