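import Vale.Agent.P004K.Gm.Iso
import Vale.Agent.P004K.Bas

/-! # P004K, block GM: places of `ℂ`, torsion points, ideals and lattices -/

set_option autoImplicit false
set_option linter.all false

open Polynomial NumberField
open scoped Classical

noncomputable section

namespace Vale.Agent.P004K.Gm

open Vale.Agent.P022 P027H
open P027M.M (io)

/-! ### places -/

theorem exists_place {P : Ideal (𝓞 Qb)} (hP : P.IsPrime) : ∃ A : ValuationSubring ℂ,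
    ∀ x : 𝓞 Qb, io x ∈ A ∧ (A.valuation (io x) = 1 ↔ x ∉ P) := by
  let ι : 𝓞 Qb →+* ℂ := (io : Qb →+* ℂ).comp (algebraMap _ _)
  have hι : Function.Injective ι := io_inj.comp RingOfIntegers.coe_injective
  let f : Localization.AtPrime P →+* ℂ := IsLocalization.lift (M := P.primeCompl) (g := ι)
    fun y => Ne.isUnit fun e => y.2 ((hι (e.trans (map_zero ι).symm)).symm ▸ P.zero_mem)
  obtain ⟨A, h, k⟩ := IsLocalRing.exists_factor_valuationRing f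
  refine ⟨A, fun x => ?_⟩
  have e : f (algebraMap _ _ x) = io x := IsLocalization.lift_eq _ x
  refine ⟨e ▸ h _, ?_⟩
  rw [← Ideal.mem_primeCompl_iff,
    ← IsLocalization.AtPrime.isUnit_to_map_iff (Localization.AtPrime P) P x,
    ← isUnit_map_iff (f.codRestrict A.toSubring h), ← e]
  exact (A.valuation_eq_one_iff ⟨_, h _⟩).symm

theorem exists_nat {P : Ideal (𝓞 Qb)} (h : P ≠ ⊥) : ∃ p : ℕ, p ≠ 0 ∧ (p : 𝓞 Qb) ∈ P := by
  obtain ⟨x, hx, x0⟩ := Submodule.exists_mem_ne_zero_of_ne_bot h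
  obtain ⟨n, hn, n0⟩ := Submodule.exists_mem_ne_zero_of_ne_bot
    (Ideal.comap_ne_bot_of_integral_mem x0 hx (RingOfIntegers.isIntegral x))
  refine ⟨n.natAbs, Int.natAbs_ne_zero.2 n0, ?_⟩
  have h1 : (n : 𝓞 Qb) ∈ P := hn
  rw [← Int.cast_natCast]
  rcases Int.natAbs_eq n with e | e
  · rwa [← e]
  · rwa [← neg_mem_iff, ← Int.cast_neg, ← e]

/-- `σ` acts as the `q`-th power on the residues of algebraic numbers -/
def Fr (A : ValuationSubring ℂ) (σ : ℂ ≃+* ℂ) (q : ℕ) : Prop := ∀ a, IsAlgebraic ℚ a →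
  (σ a ∈ A ↔ a ∈ A) ∧ (a ∈ A → rs A (σ a) = rs A a ^ q)

theorem fr_of {P : Ideal (𝓞 Qb)} (hP : P.IsPrime) (h0 : P ≠ ⊥) {A : ValuationSubring ℂ}
    (hA : ∀ x : 𝓞 Qb, io x ∈ A ∧ (A.valuation (io x) = 1 ↔ x ∉ P)) {σ : ℂ ≃+* ℂ} {g : GQ}
    (hσ : Ex σ g) {q : ℕ} (hq : q ≠ 0) (h : ∀ x : 𝓞 Qb, g • x - x ^ q ∈ P) : Fr A σ q := by
  obtain ⟨p, hp, hpP⟩ := exists_nat h0
  have le := fun {z} => A.valuation_le_one_iff z
  have k0 : ∀ x : 𝓞 Qb, σ (io x) ∈ A ∧ rs A (σ (io x)) = rs A (io x) ^ q := fun x => by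
    have e : σ (io x) = io (g • x : 𝓞 Qb) := hσ x
    refine ⟨e ▸ (hA _).1, ?_⟩
    rw [e, ← rs_pow (hA x).1, ← sub_eq_zero, ← rs_sub (hA _).1 (pow_mem (hA x).1 q), ← map_pow,
      ← map_sub]
    exact by_contra fun k => (hA _).2.1 ((rs_ne_zero (hA _).1).1 k) (h x)
  have k1 : ∀ a, IsAlgebraic ℚ a → a ∈ A → σ a ∈ A ∧ rs A (σ a) = rs A a ^ q := fun a ha m => by
    obtain ⟨x, rfl⟩ := ex_io ha
    obtain ⟨s, t, hs, e⟩ : ∃ s t : 𝓞 Qb, s ∉ P ∧ io s * io x = io t := by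
      obtain ⟨s, t, hs, e | e⟩ := P004M.TE.dich hP hp hpP x
      · exact ⟨s, t, hs, by rw [← map_mul, e]⟩
      · refine ⟨t, s, (hA t).2.1 (le_antisymm (le.2 (hA t).1) (not_lt.1 fun k => ?_)),
          by rw [← map_mul, mul_comm, e]⟩
        have := (hA s).2.2 hs
        rw [← e, map_mul, map_mul, mul_comm] at this
        exact this.not_lt (mul_lt_one_of_lt_of_le k (le.2 m))
    have s0 := pow_ne_zero q ((rs_ne_zero (hA s).1).2 ((hA s).2.2 hs))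
    have e2 := congrArg σ e
    rw [map_mul] at e2
    have m2 : σ (io x) ∈ A := by
      have := le.2 (k0 t).1
      rwa [← e2, map_mul, (rs_ne_zero (k0 s).1).1 ((k0 s).2 ▸ s0), one_mul, le] at this
    refine ⟨m2, mul_left_cancel₀ s0 ?_⟩
    rw [← mul_pow, ← rs_mul (hA s).1 m, e, ← (k0 t).2, ← e2, rs_mul (k0 s).1 m2, (k0 s).2]
  refine fun a ha => ⟨⟨fun m => by_contra fun k => ?_, fun m => (k1 a ha m).1⟩,
    fun m => (k1 a ha m).2⟩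
  have a1 : 1 < A.valuation a := not_le.1 (mt le.1 k)
  have a2 : A.valuation a⁻¹ < 1 := by
    rw [map_inv₀]
    exact inv_lt_one_of_one_lt₀ a1
  obtain ⟨m1, m2⟩ := k1 _ ha.inv (le.1 a2.le)
  rw [(rs_eq_zero (le.1 a2.le)).2 a2, zero_pow hq] at m2
  have := rs_mul m m1
  rw [← map_mul, mul_inv_cancel₀ fun e => by simp [e] at a1, map_one, rs_one, m2, mul_zero] at this
  exact one_ne_zero this

/-! ### torsion points are algebraic -/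

theorem alg_of_fin {w : ℂ} {S : Set ℂ} (hS : S.Finite)
    (h : ∀ φ : ℂ ≃+* ℂ, (∀ a, IsAlgebraic ℚ a → φ a = a) → φ w ∈ S) : IsAlgebraic ℚ w := by
  by_contra hw
  have : Algebra.IsAlgebraic ℚ Qb := AlgebraicClosure.isAlgebraic ℚ
  have : Countable Qb[X] := Cardinal.mk_le_aleph0_iff.1 (Polynomial.cardinalMk_le_max.trans (max_le
    ((Algebra.IsAlgebraic.cardinalMk_le_max ℚ Qb).trans (max_le Cardinal.mk_le_aleph0 le_rfl))
      le_rfl))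
  have k : ∀ (n : ℕ) (p : Qb[X]), eval₂RingHom (io : Qb →+* ℂ) (w + n) p = 0 ↔ p = 0 :=
    fun n p => ⟨fun e => by_contra fun p0 => by
      obtain ⟨a, ha⟩ := (IsAlgClosed.splits p).mem_range_of_isRoot (i := (io : Qb →+* ℂ)) p0
        (x := w + n) (by rwa [IsRoot, eval_map])
      have := (alg_io a).sub (isAlgebraic_nat n)
      exact hw (by rwa [show io a = w + n from ha, add_sub_cancel_right] at this),
    fun e => by rw [e, map_zero]⟩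
  refine Set.infinite_of_injective_forall_mem (f := fun n : ℕ => w + n)
    (fun a b e => by simpa using e) (fun n => ?_) hS
  obtain ⟨φ, hφ⟩ := ext_ker Qb[X] _ _ fun p => (k 0 p).trans (k n p).symm
  have := h φ fun a ha => by
    obtain ⟨x, rfl⟩ := ex_io ha
    simpa using hφ (C x)
  rwa [show φ w = w + n by simpa using hφ X] at this

variable {Λ Λ' M : Submodule ℤ ℂ}

/-- torsion points -/
def Tor (Λ : Submodule ℤ ℂ) (z : ℂ) : Prop := ∃ n : ℕ, 0 < n ∧ (n : ℂ) * z ∈ Λ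

theorem alg_wp (h : IsLat Λ) (h2 : IsAlgebraic ℚ (g2 Λ)) (h3 : IsAlgebraic ℚ (g3 Λ)) {z : ℂ}
    (hz : Tor Λ z) : IsAlgebraic ℚ (wp Λ z) := by
  obtain ⟨n, hn, hz⟩ := hz
  have k := hom_inv (Nat.cast_ne_zero.2 hn.ne' : (n : ℂ) ≠ 0) Λ
  obtain ⟨κ, _, r, hr, -⟩ := exists_reps0 h (k.symm.isLat h) fun z hz => (k.2 z).2 (nat_mul_mem n hz)
  refine alg_of_fin (Set.finite_range fun i => wp Λ (r i)) fun φ hφ => ?_
  obtain ⟨Λ', ψ, t⟩ := h.exists_tr φ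
  obtain rfl : Λ' = Λ := t.lat'.ext_g h (t.g23.1.trans (hφ _ h2)) (t.g23.2.trans (hφ _ h3))
  have := t.int n z
  rw [Int.cast_natCast] at this
  obtain ⟨i, hi⟩ := hr.ex (ψ z) ((k.2 _).2 (mem_of_eq (sub_mem ((t.mem _).2 hz) this) (by ring)))
  exact ⟨i, (h.wp_congr hi).symm.trans (t.wp z)⟩

theorem inv_mem {R : Subring ℂ} {W : WeierstrassCurve ℂ}
    (h : W.a₁ ∈ R ∧ W.a₂ ∈ R ∧ W.a₃ ∈ R ∧ W.a₄ ∈ R ∧ W.a₆ ∈ R) :
    W.b₂ ∈ R ∧ W.c₄ ∈ R ∧ W.c₆ ∈ R ∧ W.Δ ∈ R := by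
  obtain ⟨V, rfl⟩ : ∃ V : WeierstrassCurve R, W = V.map R.subtype :=
    ⟨⟨⟨_, h.1⟩, ⟨_, h.2.1⟩, ⟨_, h.2.2.1⟩, ⟨_, h.2.2.2.1⟩, ⟨_, h.2.2.2.2⟩⟩, rfl⟩
  rw [V.map_b₂, V.map_c₄, V.map_c₆, V.map_Δ]
  exact ⟨V.b₂.2, V.c₄.2, V.c₆.2, V.Δ.2⟩

/-- the conjugate of a good model -/
theorem conj_gd {A : ValuationSubring ℂ} {σ : ℂ ≃+* ℂ} {q : ℕ} (hF : Fr A σ q)
    {W : WeierstrassCurve ℂ} (h : Gd A Λ W) (ha : IsAlgebraic ℚ W.a₁ ∧ IsAlgebraic ℚ W.a₂ ∧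
      IsAlgebraic ℚ W.a₃ ∧ IsAlgebraic ℚ W.a₄ ∧ IsAlgebraic ℚ W.a₆) {φ : ℂ → ℂ}
    (t : Tr (σ : ℂ →+* ℂ) Λ Λ' φ) : Gd A Λ' (W.map σ) ∧ ∀ z, Tor Λ z →
      (Sk A Λ' (W.map σ) (φ z) ↔ Sk A Λ W z) ∧
      (¬ Sk A Λ W z → xb A Λ' (W.map σ) (φ z) = xb A Λ W z ^ q) := by
  have hb := ha
  simp only [← mem_algebraicClosure_iff] at hb
  obtain ⟨b2, c4, c6, d⟩ := inv_mem (R := (algebraicClosure ℚ ℂ).toSubring) hb
  have dv : ∀ {a} (n : ℕ) [n.AtLeastTwo], a ∈ (algebraicClosure ℚ ℂ).toSubring →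
      IsAlgebraic ℚ (a / ofNat(n)) := fun n _ m =>
    mem_algebraicClosure_iff.1 ((algebraicClosure ℚ ℂ).div_mem m (ofNat_mem _ n))
  have dm := (A.valuation_le_one_iff _).1 h.unit.le
  have d1 := hF _ (mem_algebraicClosure_iff.1 d)
  refine ⟨⟨t.lat', ⟨(hF _ ha.1).1.2 h.int.1, (hF _ ha.2.1).1.2 h.int.2.1,
    (hF _ ha.2.2.1).1.2 h.int.2.2.1, (hF _ ha.2.2.2.1).1.2 h.int.2.2.2.1,
    (hF _ ha.2.2.2.2).1.2 h.int.2.2.2.2⟩, ?_, ?_, ?_⟩, fun z hz => ?_⟩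
  · rw [W.map_Δ]
    exact (rs_ne_zero (d1.1.2 dm)).1 (d1.2 dm ▸ pow_ne_zero q ((rs_ne_zero dm).2 h.unit))
  · rw [t.g23.1, h.e2, W.map_c₄, map_div₀, map_ofNat]
  · rw [t.g23.2, h.e3, W.map_c₆, map_div₀, map_ofNat]
  have e : xx Λ' (W.map σ) (φ z) = σ (xx Λ W z) := by
    rw [xx, xx, t.wp, W.map_b₂, map_sub, map_div₀, map_ofNat]
    rfl
  have a := hF (xx Λ W z) ((alg_wp h.lat (h.e2 ▸ dv 12 c4) (h.e3 ▸ dv 216 c6) hz).sub (dv 12 b2))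
  exact ⟨by rw [Sk, Sk, t.mem, e, a.1], fun k => by rw [xb, e, a.2 (xx_mem k), xb]⟩

/-! ### ideals and lattices -/

variable {K : Type} [Field K] [NumberField K] {J : 𝓞 K →+* ℂ} {I I' : Ideal (𝓞 K)}

theorem hom_col (hJ : Function.Injective J) {I₀ I₁ : Ideal (𝓞 K)} {n : 𝓞 K} (hI : I ≠ ⊥)
    (hn : n ≠ 0) (e : I * I₁ = Ideal.span {n} * I₀) :
    Hom (J n) (col J I (lat J I₀)) (lat J I₁) := by
  have h1 := (map_ne_zero_iff J hJ).2 hn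
  refine ⟨h1, fun z => ⟨fun hz => ?_, ?_⟩⟩
  · obtain ⟨a, ha, a0⟩ := Submodule.exists_mem_ne_zero_of_ne_bot hI
    obtain ⟨y, -, ey⟩ := hz a ha
    have h3 : I * Ideal.span {n * y} ≤ I * (Ideal.span {a} * I₁) := by
      rw [mul_left_comm, e, Ideal.mul_le]
      intro b hb x hx
      obtain ⟨x, rfl⟩ := Ideal.mem_span_singleton'.1 hx
      obtain ⟨w, hw, e'⟩ := hz b hb
      refine Ideal.mem_span_singleton_mul.2 ⟨_, Ideal.mem_span_singleton_mul.2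
        ⟨x * w, I₀.mul_mem_left _ hw, rfl⟩, hJ ?_⟩
      simp only [map_mul, ey, e']
      ring
    rw [← Ideal.dvd_iff_le, mul_dvd_mul_iff_left hI, Ideal.dvd_iff_le] at h3
    obtain ⟨x, hx, ex⟩ := Ideal.mem_span_singleton_mul.1 (h3 (Ideal.mem_span_singleton_self _))
    refine ⟨x, hx, mul_left_cancel₀ ((map_ne_zero_iff J hJ).2 a0) ?_⟩
    rw [← map_mul, ex, map_mul, ey]
    ring
  · rintro ⟨b, hb, eb⟩ a ha
    obtain ⟨y, hy, e'⟩ := Ideal.mem_span_singleton_mul.1 (e ▸ Ideal.mul_mem_mul ha hb)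
    have := congrArg J e'
    rw [map_mul, map_mul, eb] at this
    exact ⟨y, hy, mul_left_cancel₀ h1 (by rw [this]; ring)⟩

theorem ex_inv (hI : I ≠ ⊥) : ∃ (n : ℕ) (I₁ : Ideal (𝓞 K)), 0 < n ∧ I₁ ≠ ⊥ ∧
    I * I₁ = Ideal.span {(n : 𝓞 K)} := by
  obtain ⟨I₁, e⟩ := Ideal.dvd_iff_le.2
    ((Ideal.span_singleton_le_iff_mem _).2 (Ideal.absNorm_mem I))
  have h := mt Ideal.absNorm_eq_zero_iff.1 hI
  refine ⟨_, I₁, Nat.pos_of_ne_zero h, ?_, e.symm⟩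
  rintro rfl
  rw [Ideal.mul_bot, Ideal.span_singleton_eq_bot] at e
  exact h (Nat.cast_eq_zero.1 e)

theorem mul_lat (a : 𝓞 K) : ∀ z ∈ lat J I, J a * z ∈ lat J I := by
  rintro _ ⟨b, hb, rfl⟩
  exact ⟨a * b, I.mul_mem_left _ hb, map_mul _ _ _⟩

theorem olat_col (h : OLat J Λ) (hI : I ≠ ⊥) : OLat J (col J I Λ) := by
  obtain ⟨n, I₁, hn, -, e⟩ := ex_inv hI
  refine ⟨h.1.of_between (h.le_col I) hn fun z hz => ?_, fun a z hz b hb => ?_⟩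
  · have : (n : 𝓞 K) ∈ I * I₁ := by
      rw [e]
      exact Ideal.mem_span_singleton_self _
    simpa using hz n (Ideal.mul_le_left this)
  · exact mem_of_eq (h.2 a _ (hz b hb)) (by ring)

variable (hJ : Function.Injective J) (hO : IsLat (lat J ⊤))
include hJ hO

theorem lat_lat (hI : I ≠ ⊥) : IsLat (lat J I) := by
  obtain ⟨n, I₁, hn, h1, e⟩ := ex_inv hI
  exact (hom_col hJ (I₀ := ⊤) h1 (Nat.cast_ne_zero.2 hn.ne')
    (by rw [mul_comm, e, Ideal.mul_top])).isLat (olat_col ⟨hO, mul_lat⟩ h1).1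

theorem ar_lat (hI : I ≠ ⊥) : ar (lat J I) = Ideal.absNorm I * ar (lat J ⊤) := by
  have e : ∀ I : Ideal (𝓞 K), (lat J I).toAddSubgroup = I.toAddSubgroup.map (J : 𝓞 K →+ ℂ) :=
    fun I => rfl
  rw [← div_eq_iff (ar_pos hO).ne', ar_div (lat_lat hJ hO hI) hO fun _ ⟨a, _, e⟩ => ⟨a, trivial, e⟩,
    e, e, AddSubgroup.relIndex_map_map_of_injective _ _ hJ, Submodule.top_toAddSubgroup,
    AddSubgroup.relIndex_top_right, Ideal.absNorm_eq_index]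

omit hJ in
theorem ex_gen (h : OLat J Λ) : ∃ w ∈ Λ, w ≠ 0 ∧ ∃ n : ℕ, 0 < n ∧
    ∀ z ∈ Λ, ∃ a, (n : ℂ) * z = J a * w := by
  obtain ⟨⟨L, rfl⟩, h2⟩ := h
  have h1 : L.ω₁ ≠ 0 := L.indep.ne_zero 0
  obtain ⟨n, hn, e⟩ := exists_exp ((hom_scl h1 _).isLat hO) ⟨L, rfl⟩ fun z ⟨a, _, e⟩ =>
    mem_of_eq (h2 a _ L.ω₁_mem_lattice) (by rw [e]; field_simp)
  refine ⟨_, L.ω₁_mem_lattice, h1, n, hn, fun z hz => ?_⟩
  obtain ⟨a, -, k⟩ := e z hz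
  exact ⟨a, by rw [k]; field_simp⟩

omit hJ hO in
theorem ideal_of (h : OLat J Λ) (c : ℂ) : ∃ I : Ideal (𝓞 K), ∀ a, a ∈ I ↔ c * J a ∈ Λ :=
  ⟨{ carrier := {x | c * J x ∈ Λ}
     add_mem' := fun {x y} hx hy => mem_of_eq (add_mem hx hy) (by rw [map_add, mul_add])
     zero_mem' := mem_of_eq (zero_mem Λ) (by rw [map_zero, mul_zero])
     smul_mem' := fun x y hy =>
       mem_of_eq (h.2 x _ hy) (by rw [smul_eq_mul, map_mul, mul_left_comm]) }, fun _ => Iff.rfl⟩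

omit hJ in
theorem ex_ideal (h : OLat J Λ) : ∃ I : Ideal (𝓞 K), I ≠ ⊥ ∧ ∃ c, Hom c Λ (lat J I) := by
  obtain ⟨w, hw, w0, n, hn, e⟩ := ex_gen hO h
  have n0 : (n : ℂ) ≠ 0 := Nat.cast_ne_zero.2 hn.ne'
  obtain ⟨I, hI⟩ := ideal_of h (w / n)
  refine ⟨I, fun k => hn.ne' ?_, n / w, div_ne_zero n0 w0, fun z => ⟨fun hz => ?_, ?_⟩⟩
  · have := (hI n).2 (mem_of_eq hw (by rw [map_natCast]; field_simp))
    rwa [k, Ideal.mem_bot, Nat.cast_eq_zero] at this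
  · obtain ⟨a, ha⟩ := e z hz
    have : J a = n / w * z := by rw [div_mul_eq_mul_div, ha]; field_simp
    exact ⟨a, (hI a).2 (mem_of_eq hz (by rw [this]; field_simp)), this⟩
  · rintro ⟨x, hx, e⟩
    exact mem_of_eq ((hI x).1 hx) (by rw [e]; field_simp)

theorem ar_col (h : OLat J Λ) (hI : I ≠ ⊥) : ar Λ / ar (col J I Λ) = Ideal.absNorm I := by
  obtain ⟨I₀, h0, c, k⟩ := ex_ideal hO h
  obtain ⟨n, I₁, hn, h1, e⟩ := ex_inv hI
  have n0 : (n : 𝓞 K) ≠ 0 := Nat.cast_ne_zero.2 hn.ne'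
  have l := (olat_col h hI).1
  have e1 := ar_hom ((k.col J I).trans (hom_col hJ hI n0 (I₁ := I₁ * I₀)
    (by rw [← mul_assoc, e]))) l
  have e2 := ar_hom ((k.col J ⊤).trans (hom_col hJ top_ne_bot n0 (I₁ := I * (I₁ * I₀))
    (by rw [← mul_assoc I, e, Ideal.top_mul]))) (olat_col h top_ne_bot).1
  rw [show col J ⊤ Λ = Λ from le_antisymm (fun z hz => by simpa using hz 1 trivial) (h.le_col _),
    ar_lat hJ hO (mul_ne_zero hI (mul_ne_zero h1 h0)), map_mul, Nat.cast_mul, mul_assoc,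
    ← ar_lat hJ hO (mul_ne_zero h1 h0), e1, mul_left_comm] at e2
  rw [div_eq_iff (ar_pos l).ne']
  exact (mul_left_cancel₀ (Complex.normSq_pos.2
    (mul_ne_zero ((map_ne_zero_iff J hJ).2 n0) k.1)).ne' e2).symm

theorem le_of_col (h : OLat J Λ) (hI : I ≠ ⊥) (hle : col J I Λ ≤ col J I' Λ) : I' ≤ I := by
  obtain ⟨I₀, h0, c, k⟩ := ex_ideal hO h
  obtain ⟨n, I₁, hn, h1, e⟩ := ex_inv hI
  have k1 := (k.col J I).trans (hom_col hJ hI (Nat.cast_ne_zero.2 hn.ne') (I₁ := I₁ * I₀)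
    (by rw [← mul_assoc, e]))
  have h3 : I' * (I₁ * I₀) ≤ I * (I₁ * I₀) := by
    rw [← mul_assoc I, e, Ideal.mul_le]
    intro a ha x hx
    obtain ⟨y, hy, ey⟩ := (k.2 _).1 (hle ((k1.symm.2 _).1 ⟨x, hx, rfl⟩) a ha)
    refine Ideal.mem_span_singleton_mul.2 ⟨y, hy, hJ ?_⟩
    have := k1.1
    have := left_ne_zero_of_mul this
    have := k.1
    rw [map_mul, map_mul, ey]
    field_simp
  rwa [← Ideal.dvd_iff_le, mul_dvd_mul_iff_right (mul_ne_zero h1 h0), Ideal.dvd_iff_le] at h3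

theorem eq_col (h : OLat J Λ) (hM : OLat J M) (hle : Λ ≤ M) : ∃ I ≠ ⊥, M = col J I Λ := by
  obtain ⟨I₀, h0, c, k⟩ := ex_ideal hO h
  obtain ⟨n, hn, e⟩ := exists_exp h.1 hM.1 hle
  have n0 : (n : ℂ) ≠ 0 := Nat.cast_ne_zero.2 hn.ne'
  have c0 := k.1
  obtain ⟨I₁, h1⟩ := ideal_of hM (n * c)⁻¹
  obtain ⟨I, eI⟩ := Ideal.dvd_iff_le.2 (show Ideal.span {(n : 𝓞 K)} * I₀ ≤ I₁ from fun x hx => by
    obtain ⟨y, hy, rfl⟩ := Ideal.mem_span_singleton_mul.1 hx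
    exact (h1 _).2 (mem_of_eq (hle ((k.symm.2 _).1 ⟨y, hy, rfl⟩))
      (by rw [map_mul, map_natCast]; field_simp)))
  have n1 : (n : 𝓞 K) ≠ 0 := Nat.cast_ne_zero.2 hn.ne'
  have I0 : I ≠ ⊥ := by
    rintro rfl
    exact mul_ne_zero (mt Ideal.span_singleton_eq_bot.1 n1) h0 (eI.trans (Ideal.mul_bot _))
  have k1 := (k.col J I).trans (hom_col hJ I0 n1 (I₁ := I₁) (by rw [eI, mul_comm]))
  rw [map_natCast] at k1
  refine ⟨I, I0, Hom.unique (Hom.symm ⟨k1.1, fun z => ⟨fun hz => ?_, ?_⟩⟩) k1.symm⟩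
  · obtain ⟨a, -, ea⟩ := (k.2 _).1 (e z hz)
    have : J a = n * c * z := by rw [ea]; ring
    exact ⟨a, (h1 a).2 (mem_of_eq hz (by rw [this]; field_simp)), this⟩
  · rintro ⟨a, ha, ea⟩
    exact mem_of_eq ((h1 a).1 ha) (by rw [ea]; field_simp)

end Vale.Agent.P004K.Gm
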