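import Vale.Agent.P004K.Gm.Rd
import Vale.Agent.P027H.Prod

/-! # P004K, block GM: the reduction of an isogeny -/

set_option autoImplicit false
set_option linter.all false

open Polynomial
open scoped Classical Pointwise

noncomputable section

namespace Vale.Agent.P004K

open P027H

namespace Gm

variable {Λ M : Submodule ℤ ℂ}

/-- generic points -/
theorem gen {H H' : AddSubgroup ℂ} (h : H ≠ ⊤) (h' : H' ≠ ⊤) {ι : Type} [Fintype ι] (a : ι → ℂ) :
    ∃ u, ∀ i, u - a i ∉ H ∧ u - a i ∉ H' := by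
  by_contra! k
  obtain ⟨i, -, hi⟩ := AddSubgroup.exists_finiteIndex_of_leftCoset_cover (s := Finset.univ)
    (H := fun p : ι × Bool => if p.2 then H else H') (g := fun p => a p.1) (by
      refine Set.eq_univ_of_forall fun u => ?_
      obtain ⟨i, hi⟩ := k u
      simp only [Set.mem_iUnion, mem_leftAddCoset_iff, neg_add_eq_sub]
      by_cases e : u - a i ∈ H
      · exact ⟨(i, true), Finset.mem_univ _, e⟩
      · exact ⟨(i, false), Finset.mem_univ _, hi e⟩)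
  generalize hG : (if i.2 then H else H') = G at hi
  have : G = ⊤ := eq_top_iff.2 fun z _ => by
    have h1 := G.nsmul_index_mem (z / G.index)
    rwa [nsmul_eq_mul, mul_div_cancel₀ _ (by exact_mod_cast hi.1)] at h1
  split_ifs at hG
  exacts [h (hG.trans this), h' (hG.trans this)]

theorem card_reps {ι : Type} [Fintype ι] {r : ι → ℂ} (h : Reps r Λ M) :
    Fintype.card ι = Λ.toAddSubgroup.relIndex M.toAddSubgroup := by
  rw [← Nat.card_eq_fintype_card]
  refine Nat.card_eq_of_bijective (fun i => (((⟨r i, h.mem i⟩ : M.toAddSubgroup) :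
    M.toAddSubgroup ⧸ Λ.toAddSubgroup.addSubgroupOf M.toAddSubgroup))) ⟨fun i k e => ?_, fun q => ?_⟩
  · have : -r i + r k ∈ Λ := QuotientAddGroup.eq.1 e
    exact h.inj i k (mem_of_eq (neg_mem this) (by ring))
  · obtain ⟨⟨m, hm⟩, rfl⟩ := QuotientAddGroup.mk_surjective q
    obtain ⟨i, hi⟩ := h.ex m hm
    exact ⟨i, QuotientAddGroup.eq.2 (mem_of_eq hi (neg_add_eq_sub _ _) : -r i + m ∈ Λ)⟩

theorem exists_reps0 (hΛ : IsLat Λ) (hM : IsLat M) (hle : Λ ≤ M) :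
    ∃ (κ : Type) (_ : Fintype κ) (r : Option κ → ℂ), Reps r Λ M ∧ r none = 0 := by
  obtain ⟨n, hn, e⟩ := exists_exp hΛ hM hle
  obtain ⟨ι, _, r, h⟩ := exists_reps hM hle hn e
  obtain ⟨i, hi⟩ := h.ex 0 (zero_mem _)
  have k : ∀ o : Option {k // k ≠ i}, o.elim 0 (fun k => r k) - r (Equiv.optionSubtypeNe i o) ∈ Λ := by
    rintro (_ | k)
    · exact hi
    · exact mem_of_eq (zero_mem _) (sub_self _)
  refine ⟨{k // k ≠ i}, inferInstance, fun o => o.elim 0 fun k => r k,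
    ⟨hle, fun o => mem_of_eq (add_mem (hle (k o)) (h.mem _)) (sub_add_cancel _ _).symm,
      fun m hm => ?_, fun o o' e => (Equiv.optionSubtypeNe i).injective (h.inj _ _ ?_)⟩, rfl⟩
  · obtain ⟨a, ha⟩ := h.ex m hm
    obtain ⟨o, rfl⟩ := (Equiv.optionSubtypeNe i).surjective a
    exact ⟨o, mem_of_eq (sub_mem ha (k o)) (by ring)⟩
  · exact mem_of_eq (add_mem (sub_mem e (k o)) (k o')) (by ring)

variable {A : ValuationSubring ℂ} {W : WeierstrassCurve ℂ} {z w : ℂ}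

theorem sk_add (h : Gd A Λ W) (hz : Sk A Λ W z) (hw : Sk A Λ W w) : Sk A Λ W (z + w) :=
  (mem_SK h).1 (add_mem ((mem_SK h).2 hz) ((mem_SK h).2 hw))

theorem sk_sub (h : Gd A Λ W) (hz : Sk A Λ W z) (hw : Sk A Λ W w) : Sk A Λ W (z - w) :=
  (gm0 A Λ W h).1 z w hz hw

theorem sk_eq (hz : Sk A Λ W z) (e : w = z) : Sk A Λ W w := e ▸ hz

theorem xx_mem (hz : ¬ Sk A Λ W z) : xx Λ W z ∈ A := not_not.1 (not_or.1 hz).2

theorem xb_congr (h : Gd A Λ W) (hz : ¬ Sk A Λ W z) (e : Sk A Λ W (z - w)) :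
    xb A Λ W z = xb A Λ W w :=
  (xb_eq h hz fun k => hz (sk_eq (sk_add h e k) (by ring))).2 (Or.inl e)

end Gm

open Gm

theorem iso : ISO := fun A Λ W Λ' W' c h h' hc hle => by
  have hM := hom_inv hc Λ'
  obtain ⟨κ, _, r, hr, r0⟩ := exists_reps0 h.lat (hM.symm.isLat h'.lat)
    fun z hz => (hM.2 z).2 (hle z hz)
  have cd : Fintype.card (Option κ) = dg c Λ Λ' := card_reps hr
  have le := fun {z} => A.valuation_le_one_iff z
  have rn : ∀ k, r (some k) ∉ Λ := fun k e =>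
    Option.some_ne_none k (hr.inj _ _ (by rwa [r0, sub_zero]))
  have rm : ∀ i, c * r i ∈ Λ' := fun i => (hM.2 _).1 (hr.mem i)
  have rx : ∀ z, c * z ∈ Λ' → ∃ i, z - r i ∈ Λ := fun z hz => hr.ex z ((hM.2 _).2 hz)
  obtain ⟨T, hT⟩ : ∃ T : Finset κ, ∀ k, k ∈ T ↔ ¬ Sk A Λ W (r (some k)) :=
    ⟨Finset.univ.filter fun k => ¬ Sk A Λ W (r (some k)), fun k => Finset.mem_filter_univ k⟩
  have big : ∀ k ∈ Tᶜ, 1 < A.valuation (-xx Λ W (r (some k))) := fun k hk => by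
    rw [Valuation.map_neg, ← not_le, le]
    exact (not_not.1 (mt (hT k).2 (Finset.mem_compl.1 hk))).resolve_left (rn k)
  obtain ⟨ε, hε⟩ : ∃ ε, ε = c ^ 2 * ∏ k ∈ Tᶜ, -xx Λ W (r (some k)) := ⟨_, rfl⟩
  have key : ∀ z u, ¬ Sk A Λ W z → c * z ∉ Λ' → (∀ i, ¬ Sk A Λ W (u - r i)) → ∃ a ∈ A, ∃ b ∈ A,
      rs A a = ∏ i, (xb A Λ W z - xb A Λ W (u - r i)) ∧
      rs A b = ∏ k ∈ T, (xb A Λ W z - xb A Λ W (r (some k))) ∧
      a = ε * b * (xx Λ' W' (c * z) - xx Λ' W' (c * u)) := fun z u hz hz' hu => by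
    have x1 := xx_mem hz
    have m1 : ∀ i ∈ Finset.univ, xx Λ W z - xx Λ W (u - r i) ∈ A := fun i _ =>
      sub_mem x1 (xx_mem (hu i))
    have m2 : ∀ k ∈ T, xx Λ W z - xx Λ W (r (some k)) ∈ A := fun k hk =>
      sub_mem x1 (xx_mem ((hT k).1 hk))
    have m3 : ∀ k ∈ Tᶜ, A.valuation (xx Λ W z / -xx Λ W (r (some k))) < 1 := fun k hk => by
      rw [map_div₀, div_lt_one₀ (zero_lt_one.trans (big k hk))]
      exact (le.2 x1).trans_lt (big k hk)
    have m4 : ∀ k ∈ Tᶜ, 1 + xx Λ W z / -xx Λ W (r (some k)) ∈ A := fun k hk =>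
      add_mem (one_mem _) (le.1 (m3 k hk).le)
    refine ⟨_, prod_mem m1, _, mul_mem (prod_mem m2) (prod_mem m4), ?_, ?_, ?_⟩
    · rw [rs_prod _ _ m1]
      exact Finset.prod_congr rfl fun i _ => rs_sub x1 (xx_mem (hu i))
    · rw [rs_mul (prod_mem m2) (prod_mem m4), rs_prod _ _ m2, rs_prod _ _ m4,
        Finset.prod_eq_one (s := Tᶜ), mul_one]
      · exact Finset.prod_congr rfl fun k hk => rs_sub x1 (xx_mem ((hT k).1 hk))
      · intro k hk
        rw [rs_add (one_mem _) (le.1 (m3 k hk).le), rs_one,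
          (rs_eq_zero (le.1 (m3 k hk).le)).2 (m3 k hk), add_zero]
    · have e := reps_prod hr r0 h.lat (hM.symm.isLat h'.lat) (p := z) (z := u) (mt (hM.2 _).1 hz')
        fun e => (hr.ex u e).elim fun i hi => hu i (Or.inl hi)
      have n : ∀ f : κ → ℂ, ∏ k, (f k - wp Λ z) = (-1) ^ Fintype.card κ * ∏ k, (wp Λ z - f k) :=
        fun f => by rw [← Finset.card_univ, ← Finset.prod_neg]; simp only [neg_sub]
      have e2 : ∏ k ∈ Tᶜ, (xx Λ W z - xx Λ W (r (some k))) = (∏ k ∈ Tᶜ, -xx Λ W (r (some k))) *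
          ∏ k ∈ Tᶜ, (1 + xx Λ W z / -xx Λ W (r (some k))) := by
        rw [← Finset.prod_mul_distrib]
        refine Finset.prod_congr rfl fun k hk => ?_
        rw [mul_add, mul_div_cancel₀ _ fun e => by simpa [e] using big k hk]
        ring
      have e3 := Finset.prod_mul_prod_compl T fun k => xx Λ W z - xx Λ W (r (some k))
      rw [e2] at e3
      rw [n, n] at e
      rw [Fintype.prod_option, r0, sub_zero, hε,
        show ∀ a b d e : ℂ, a * b * (d * e) = a * (d * (b * e)) from fun _ _ _ _ => by ring, e3]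
      simp only [xx, sub_sub_sub_cancel_right, hM.wp]
      refine mul_left_cancel₀ (pow_ne_zero (Fintype.card κ) (neg_ne_zero.2 one_ne_zero)) ?_
      generalize scl c⁻¹ Λ' = M at e ⊢
      generalize (-1 : ℂ) ^ Fintype.card κ = s at e ⊢
      have := mul_inv_cancel₀ hc
      linear_combination -e - s * (∏ k, (wp Λ z - wp Λ (r (some k)))) * (wp M z - wp M u) *
        (c * c⁻¹ + 1) * this
  have gn : ∀ a b, ∃ u, ∀ w, w = u ∨ w = u - a ∨ w = u - b → (∀ m, c * m ∈ Λ' →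
      ¬ Sk A Λ W (w - m)) ∧ ¬ Sk A Λ' W' (c * w) ∧ ¬ Sk A Λ' W' (c * w + c * w) := fun a b => by
    obtain ⟨u, hu⟩ := gen (SK_ne h) (H' := (SK h').comap (AddMonoidHom.mulLeft (2 * c)))
      (fun e => SK_ne h' (eq_top_iff.2 fun z _ => by
        have : 2 * c * (z / (2 * c)) ∈ SK h' := (e ▸ AddSubgroup.mem_top _ :
          z / (2 * c) ∈ (SK h').comap (AddMonoidHom.mulLeft (2 * c)))
        rwa [mul_div_cancel₀ _ (mul_ne_zero two_ne_zero hc)] at this))
      fun p : Option κ × Fin 3 => ![0, a, b] p.2 + r p.1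
    refine ⟨u, fun w hw => ?_⟩
    obtain ⟨i, rfl⟩ : ∃ i, w = u - ![0, a, b] i := by
      rcases hw with e | e | e
      exacts [⟨0, by simpa using e⟩, ⟨1, e⟩, ⟨2, e⟩]
    have k : ¬ Sk A Λ' W' (c * (u - ![0, a, b] i) + c * (u - ![0, a, b] i)) := fun e =>
      (hu (none, i)).2 ((mem_SK h').2 (sk_eq e (by simp only [r0, AddMonoidHom.coe_mulLeft]; ring)))
    refine ⟨fun m hm e => ?_, fun e => k (sk_add h' e e), k⟩
    obtain ⟨l, hl⟩ := rx m hm
    exact (hu (l, i)).1 ((mem_SK h).2 (sk_eq (sk_add h e (Or.inl hl)) (by ring)))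
  have z0 : c * 0 ∈ Λ' := hle 0 (zero_mem _)
  have vε : A.valuation ε = 1 := by
    obtain ⟨z, hz⟩ := gn 0 0
    obtain ⟨z1, z2, -⟩ := hz z (Or.inl rfl)
    obtain ⟨u, hu⟩ := gn z (-z)
    obtain ⟨u1, u2, -⟩ := hu u (Or.inl rfl)
    obtain ⟨u3, u4, -⟩ := hu _ (Or.inr (Or.inl rfl))
    obtain ⟨u5, u6, -⟩ := hu _ (Or.inr (Or.inr rfl))
    have z3 : ¬ Sk A Λ W z := by simpa using z1 0 z0
    obtain ⟨a, ha, b, hb, e1, e2, e3⟩ := key z u z3 (not_or.1 z2).1 fun i => u1 _ (rm i)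
    have a1 := (rs_ne_zero ha).1 (e1 ▸ Finset.prod_ne_zero_iff.2 fun i _ e =>
      ((xb_eq h (u1 _ (rm i)) z3).1 (sub_eq_zero.1 e).symm).elim
        (fun e => u3 _ (rm i) (sk_eq e (by ring))) fun e => u5 _ (rm i) (sk_eq e (by ring)))
    have b1 := (rs_ne_zero hb).1 (e2 ▸ Finset.prod_ne_zero_iff.2 fun k hk e =>
      ((xb_eq h z3 ((hT k).1 hk)).1 (sub_eq_zero.1 e)).elim (z1 _ (rm _)) fun e =>
        z1 (-r (some k)) (mem_of_eq (neg_mem (rm _)) (mul_neg _ _)) (sk_eq e (by ring)))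
    have c1 := (rs_ne_zero (sub_mem (xx_mem z2) (xx_mem u2))).1 (by
      rw [rs_sub (xx_mem z2) (xx_mem u2)]
      exact fun e => ((xb_eq h' u2 z2).1 (sub_eq_zero.1 e).symm).elim
        (fun e => u4 (sk_eq e (by ring))) fun e => u6 (sk_eq e (by ring)))
    rwa [e3, map_mul, map_mul, b1, c1, mul_one, mul_one] at a1
  have εm := le.1 vε.le
  have ε0 := (rs_ne_zero εm).2 vε
  obtain ⟨u, hu⟩ := gn 0 0
  obtain ⟨u1, u2, -⟩ := hu u (Or.inl rfl)
  obtain ⟨Q, hQ⟩ : ∃ Q, Q = C (rs A ε) * ∏ k ∈ T, (X - C (xb A Λ W (r (some k)))) := ⟨_, rfl⟩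
  obtain ⟨R, hR⟩ : ∃ R, R = ∏ i, (X - C (xb A Λ W (u - r i))) := ⟨_, rfl⟩
  have eQ : ∀ t, Q.eval t = rs A ε * ∏ k ∈ T, (t - xb A Λ W (r (some k))) := fun t => by
    simp [hQ, eval_prod]
  have eR : ∀ t, R.eval t = ∏ i, (t - xb A Λ W (u - r i)) := fun t => by simp [hR, eval_prod]
  have cop : IsCoprime R Q := by
    rw [hQ, hR, isCoprime_mul_unit_left_right (isUnit_C.2 ε0.isUnit)]
    refine IsCoprime.prod_left fun i _ => IsCoprime.prod_right fun k hk =>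
      isCoprime_X_sub_C_of_isUnit_sub (Ne.isUnit fun e => ?_)
    exact ((xb_eq h (u1 _ (rm i)) ((hT k).1 hk)).1 (sub_eq_zero.1 e)).elim
      (fun e => u1 (r i + r (some k)) (mem_of_eq (add_mem (rm _) (rm _)) (mul_add _ _ _))
        (sk_eq e (by ring))) fun e => u1 (r i - r (some k))
          (mem_of_eq (sub_mem (rm _) (rm _)) (mul_sub _ _ _)) (sk_eq e (by ring))
  have dR : R.natDegree = dg c Λ Λ' := by
    rw [hR, natDegree_prod_of_monic _ _ fun i _ => monic_X_sub_C _, ← cd]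
    simp
  have dQ : Q.natDegree < dg c Λ Λ' := by
    rw [hQ, natDegree_C_mul ε0, natDegree_prod_of_monic _ _ fun i _ => monic_X_sub_C _, ← cd]
    simpa [Nat.lt_succ_iff] using T.card_le_univ
  have pq : ∀ z, ¬ Sk A Λ W z → (Sk A Λ' W' (c * z) ↔ Q.eval (xb A Λ W z) = 0) ∧
      (¬ Sk A Λ' W' (c * z) → xb A Λ' W' (c * z) * Q.eval (xb A Λ W z) =
        (C (xb A Λ' W' (c * u)) * Q + R).eval (xb A Λ W z)) := fun z hz => by
    by_cases hz' : c * z ∈ Λ'
    · refine ⟨iff_of_true (Or.inl hz') ?_, fun e => (e (Or.inl hz')).elim⟩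
      obtain ⟨_ | k, hk⟩ := rx z hz'
      · exact (hz (Or.inl (by rwa [r0, sub_zero] at hk))).elim
      · rw [eQ, Finset.prod_eq_zero ((hT k).2 fun e => hz (sk_eq (sk_add h e (Or.inl hk)) (by ring)))
          (sub_eq_zero.2 (xb_congr h hz (Or.inl hk))), mul_zero]
    obtain ⟨a, ha, b, hb, e1, e2, e3⟩ := key z u hz hz' fun i => u1 _ (rm i)
    rw [← eR] at e1
    have e4 : rs A (ε * b) = Q.eval (xb A Λ W z) := by rw [rs_mul εm hb, e2, eQ]
    have e5 : ¬ Sk A Λ' W' (c * z) → R.eval (xb A Λ W z) =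
        Q.eval (xb A Λ W z) * (xb A Λ' W' (c * z) - xb A Λ' W' (c * u)) := fun k => by
      rw [← e1, e3, rs_mul (mul_mem εm hb) (sub_mem (xx_mem k) (xx_mem u2)), e4,
        rs_sub (xx_mem k) (xx_mem u2)]
      rfl
    refine ⟨⟨fun k => ?_, fun e => by_contra fun k => ?_⟩, fun k => ?_⟩
    · by_contra e
      rw [← e4, ← Ne, rs_ne_zero (mul_mem εm hb)] at e
      have := le.2 ha
      rw [e3, map_mul, e, one_mul, le] at this
      exact k.resolve_left hz' (by simpa using add_mem this (xx_mem u2))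
    · have := cop.map (evalRingHom (xb A Λ W z))
      rw [coe_evalRingHom, e5 k, e, zero_mul] at this
      exact not_isCoprime_zero_zero this
    · rw [eval_add, eval_mul, eval_C, e5 k]
      ring
  refine ⟨fun z hz => ?_, ?_, ⟨_, Q, cop.mul_add_right_left _, ?_, dQ, pq⟩, fun hk => ?_⟩
  · obtain ⟨w, hw⟩ := gn (-z) (-z / 2)
    obtain ⟨w1, w2, -⟩ := hw w (Or.inl rfl)
    obtain ⟨w3, w4, -⟩ := hw _ (Or.inr (Or.inl rfl))
    obtain ⟨-, -, w5⟩ := hw _ (Or.inr (Or.inr rfl))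
    replace w1 : ¬ Sk A Λ W w := by simpa using w1 0 z0
    replace w3 : ¬ Sk A Λ W (w - -z) := by simpa using w3 0 z0
    have e := (pq _ w3).2 w4
    rw [xb_congr h w3 (w := w) (sk_eq hz (by ring)), ← (pq _ w1).2 w2] at e
    exact ((xb_eq h' w4 w2).1 (mul_right_cancel₀ (mt (pq _ w1).1.2 w2) e)).elim
      (fun e => sk_eq e (by ring)) fun e => (w5 (sk_eq e (by ring))).elim
  · rw [hε, map_mul, map_pow, map_prod] at vε
    refine ⟨fun e z hz hz' => ?_, fun e => ?_⟩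
    · obtain ⟨_ | k, hk⟩ := rx z hz'
      · rwa [r0, sub_zero] at hk
      · have k1 : k ∈ Tᶜ := Finset.mem_compl.2 fun e =>
          (hT k).1 e (sk_eq (sk_sub h hz (Or.inl hk)) (by ring))
        rw [e, one_pow, one_mul, ← Finset.mul_prod_erase _ _ k1] at vε
        exact absurd vε (one_lt_mul_of_lt_of_le' (big k k1) (Finset.one_le_prod' fun l hl =>
          (big l (Finset.mem_of_mem_erase hl)).le)).ne'
    · rw [Finset.prod_eq_one fun k hk => (Finset.mem_compl.1 hk ((hT k).2 fun s =>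
        rn k (e _ s (rm _)))).elim, mul_one] at vε
      exact (pow_eq_one_iff_of_nonneg zero_le' two_ne_zero).1 vε
  · rw [natDegree_add_eq_right_of_natDegree_lt ((natDegree_C_mul_le _ _).trans_lt (dR ▸ dQ)), dR]
  · have T0 : T = ∅ := Finset.eq_empty_of_forall_notMem fun k e => (hT k).1 e (hk _ (rm _))
    have n1 : ∀ z, ¬ Sk A Λ W z → ¬ Sk A Λ' W' (c * z) := fun z hz e => ε0 (by
      simpa [eQ, T0] using (pq z hz).1.1 e)
    refine ⟨(rs A ε)⁻¹, inv_ne_zero ε0, fun z u hz hu => ⟨n1 z hz, ?_⟩⟩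
    obtain ⟨a, ha, b, hb, e1, e2, e3⟩ := key z u hz (not_or.1 (n1 z hz)).1 fun i e =>
      hu (sk_eq (sk_add h e (hk _ (rm i))) (by ring))
    rw [e3, rs_mul (mul_mem εm hb) (sub_mem (xx_mem (n1 z hz)) (xx_mem (n1 u hu))), rs_mul εm hb,
      e2, T0, Finset.prod_empty, mul_one, rs_sub (xx_mem (n1 z hz)) (xx_mem (n1 u hu)),
      Finset.prod_congr rfl fun i _ => congrArg (xb A Λ W z - ·)
        (xb_congr h hu (w := u - r i) (sk_eq (hk _ (rm i)) (by ring))).symm,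
      Finset.prod_const, Finset.card_univ, cd] at e1
    rw [← e1, inv_mul_cancel_left₀ ε0]
    rfl

end Vale.Agent.P004K
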