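import Vale.Agent.P004K.Gm.Jh
import Vale.Agent.P179W.PtRed

/-! # P004K, block GM: uniformisation of a good model and its reduction -/

set_option autoImplicit false
set_option linter.all false

open WeierstrassCurve WeierstrassCurve.Affine Filter Topology
open scoped Classical

noncomputable section

namespace Vale.Agent.P004K

open P027H P179W

namespace Gm

/-- the residue field -/
abbrev kk (A : ValuationSubring ℂ) : Type := IsLocalRing.ResidueField A

variable {A : ValuationSubring ℂ} {Λ : Submodule ℤ ℂ} {W : WeierstrassCurve ℂ}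

theorem rs_coe (a : A) : rs A a = IsLocalRing.residue A a := dif_pos a.2

theorem rs_add {a b : ℂ} (ha : a ∈ A) (hb : b ∈ A) : rs A (a + b) = rs A a + rs A b := by
  lift a to A using ha
  lift b to A using hb
  rw [← A.coe_add, rs_coe, rs_coe, rs_coe, map_add]

theorem rs_mul {a b : ℂ} (ha : a ∈ A) (hb : b ∈ A) : rs A (a * b) = rs A a * rs A b := by
  lift a to A using ha
  lift b to A using hb
  rw [← A.coe_mul, rs_coe, rs_coe, rs_coe, map_mul]

theorem rs_sub {a b : ℂ} (ha : a ∈ A) (hb : b ∈ A) : rs A (a - b) = rs A a - rs A b := by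
  rw [eq_sub_iff_add_eq, ← rs_add (sub_mem ha hb) hb, sub_add_cancel]

theorem rs_one : rs A 1 = 1 := (rs_coe 1).trans (map_one _)

theorem rs_eq_zero {a : ℂ} (ha : a ∈ A) : rs A a = 0 ↔ A.valuation a < 1 := by
  lift a to A using ha
  rw [rs_coe, IsLocalRing.residue_eq_zero_iff, A.valuation_lt_one_iff]

theorem rs_ne_zero {a : ℂ} (ha : a ∈ A) : rs A a ≠ 0 ↔ A.valuation a = 1 := by
  rw [Ne, rs_eq_zero ha, not_lt]
  exact ⟨le_antisymm ((A.valuation_le_one_iff a).2 ha), Eq.ge⟩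

theorem rs_prod {ι : Type} (s : Finset ι) (f : ι → ℂ) (h : ∀ i ∈ s, f i ∈ A) :
    rs A (∏ i ∈ s, f i) = ∏ i ∈ s, rs A (f i) := by
  induction s using Finset.cons_induction with
  | empty => exact rs_one
  | cons a s ha ih =>
    rw [Finset.forall_mem_cons] at h
    rw [Finset.prod_cons, Finset.prod_cons, rs_mul h.1 (prod_mem h.2), ih h.2]

theorem rs_pow {a : ℂ} (ha : a ∈ A) (n : ℕ) : rs A (a ^ n) = rs A a ^ n := by
  simpa using rs_prod (Finset.range n) (fun _ => a) fun _ _ => ha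

/-- the second coordinate -/
def yy (Λ : Submodule ℤ ℂ) (W : WeierstrassCurve ℂ) (z : ℂ) : ℂ :=
  (dwp Λ z - W.a₁ * xx Λ W z - W.a₃) / 2

/-- the uniformisation -/
def exf (Λ : Submodule ℤ ℂ) (W : WeierstrassCurve ℂ) (z : ℂ) : W.toAffine.Point :=
  if z ∈ Λ then 0 else pt W (xx Λ W z) (yy Λ W z)

/-- the reduced curve -/
def Wb (A : ValuationSubring ℂ) (W : WeierstrassCurve ℂ) : WeierstrassCurve (kk A) :=
  ⟨rs A W.a₁, rs A W.a₂, rs A W.a₃, rs A W.a₄, rs A W.a₆⟩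

variable (h : Gd A Λ W)
include h

theorem ns {z : ℂ} (hz : z ∉ Λ) : W.toAffine.Nonsingular (xx Λ W z) (yy Λ W z) := by
  refine nonsing_of_Δ (fun e => by simpa [e] using h.unit) ?_
  have := h.lat.ode hz
  rw [h.e2, h.e3] at this
  rw [equation_iff]
  simp only [yy, xx, c₄, c₆, b₂, b₄, b₆] at this ⊢
  linear_combination (1 / 4) * this

theorem exf_of {z : ℂ} (hz : z ∉ Λ) : exf Λ W z = .some _ _ (ns h hz) := by
  rw [exf, if_neg hz, pt_of]

theorem xx_congr {z w : ℂ} (e : z - w ∈ Λ) : xx Λ W z = xx Λ W w := by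
  rw [xx, xx, h.lat.wp_congr e]

theorem xx_neg (z : ℂ) : xx Λ W (-z) = xx Λ W z := by rw [xx, xx, h.lat.wp_neg]

theorem exf_congr {z w : ℂ} (e : z - w ∈ Λ) : exf Λ W z = exf Λ W w := by
  have : z ∈ Λ ↔ w ∈ Λ := ⟨fun k => mem_of_eq (sub_mem k e) (by ring),
    fun k => mem_of_eq (add_mem k e) (by ring)⟩
  rw [exf, exf, yy, yy, xx_congr h e, h.lat.dwp_congr e, if_congr this rfl rfl]

theorem exf_neg (z : ℂ) : exf Λ W (-z) = -exf Λ W z := by
  by_cases hz : z ∈ Λ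
  · rw [exf, exf, if_pos hz, if_pos (neg_mem hz), neg_zero]
  · rw [exf_of h hz, exf_of h (mt neg_mem_iff.1 hz), Point.neg_some]
    congr 1
    · exact xx_neg h z
    · rw [negY, yy, yy, xx_neg h, h.lat.dwp_neg]
      ring

theorem exf_add1 {z w : ℂ} (hz : z ∉ Λ) (hw : w ∉ Λ) (h1 : z - w ∉ Λ) (h2 : z + w ∉ Λ) :
    exf Λ W (z + w) = exf Λ W z + exf Λ W w := by
  have ne := h.lat.wp_ne hz hw h1 h2
  obtain ⟨-, a1, a2⟩ := h.lat.add hz hw ne
  have nx : xx Λ W z ≠ xx Λ W w := fun e => ne (sub_left_injective e)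
  have sp : W.toAffine.slope (xx Λ W z) (xx Λ W w) (yy Λ W z) (yy Λ W w) =
      (sl (wp Λ z) (dwp Λ z) (wp Λ w) (dwp Λ w) - W.a₁) / 2 := by
    rw [slope_of_X_ne nx, sl]
    have := sub_ne_zero.2 ne
    simp only [yy, xx, sub_sub_sub_cancel_right]
    field_simp
    ring
  rw [exf_of h hz, exf_of h hw, exf_of h h2, Point.add_of_X_ne nx]
  congr 1
  · rw [sp, xx, a1, aX, addX]
    simp only [xx, b₂]
    ring
  · rw [sp, yy, xx, a2, a1, aY, aX, addY, negY, negAddY, addX]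
    simp only [xx, yy, b₂]
    ring

theorem exf_add (z w : ℂ) : exf Λ W (z + w) = exf Λ W z + exf Λ W w := by
  have z0 : ∀ {z}, z ∈ Λ → exf Λ W z = 0 := fun hz => if_pos hz
  by_cases hz : z ∈ Λ
  · rw [z0 hz, zero_add, exf_congr h (mem_of_eq hz (add_sub_cancel_right z w))]
  by_cases hw : w ∈ Λ
  · rw [z0 hw, add_zero, exf_congr h (mem_of_eq hw (add_sub_cancel_left z w))]
  by_cases h2 : z + w ∈ Λ
  · rw [z0 h2, exf_congr h (z := z) (w := -w) (by rwa [sub_neg_eq_add]), exf_neg h, neg_add_cancel]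
  by_cases h1 : z - w ∈ Λ
  swap
  · exact exf_add1 h hz hw h1 h2
  have t1 : Tendsto (fun c : ℂ => z + c) (𝓝[≠] 0) (𝓝 z) :=
    ((continuous_const.add continuous_id).tendsto' 0 z (add_zero z)).mono_left nhdsWithin_le_nhds
  have t2 : Tendsto (fun c : ℂ => z - c) (𝓝[≠] 0) (𝓝 z) :=
    ((continuous_const.sub continuous_id).tendsto' 0 z (sub_zero z)).mono_left nhdsWithin_le_nhds
  have t3 : Tendsto (fun c : ℂ => c + c) (𝓝[≠] 0) (𝓝[≠] 0) :=
    tendsto_nhdsWithin_iff.2 ⟨((continuous_id.add continuous_id).tendsto' 0 0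
      (add_zero 0)).mono_left nhdsWithin_le_nhds,
      eventually_nhdsWithin_of_forall fun c hc e => hc (add_self_eq_zero.1 e)⟩
  obtain ⟨c, ⟨⟨c1, c2⟩, c3⟩, c4⟩ := (((h.lat.notMem_zero.and (t1.eventually
    (h.lat.notMem_nhds hz))).and (t2.eventually (h.lat.notMem_nhds hz))).and
    (t3.eventually h.lat.notMem_zero)).exists
  have h3 : z + c + (z - c) ∉ Λ := fun e => h2 (mem_of_eq (sub_mem e h1) (by ring))
  rw [← exf_congr h h1, exf_congr h (z := z + w) (w := z + c + (z - c))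
    (mem_of_eq (neg_mem h1) (by ring)), exf_add1 h c2 c3 (fun e => c4 (mem_of_eq e (by ring))) h3,
    exf_add1 h hz c1 c3 c2, sub_eq_add_neg, exf_add1 h hz (mt neg_mem_iff.1 c1)
      (by rwa [sub_neg_eq_add]) (by rwa [← sub_eq_add_neg]), exf_neg h]
  abel

theorem cin : CoeffIn W {z | A.valuation z ≤ 1} := by
  have := h.int
  simp only [← A.valuation_le_one_iff] at this
  exact this

theorem red : (∀ x y, W.toAffine.Equation x y → A.valuation x ≤ 1 →
      (Wb A W).toAffine.Nonsingular (rs A x) (rs A y)) ∧ ∀ P Q : W.toAffine.Point,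
    ptRed {z | A.valuation z ≤ 1} (rs A) (Wb A W) (P + Q) =
      ptRed {z | A.valuation z ≤ 1} (rs A) (Wb A W) P +
        ptRed {z | A.valuation z ≤ 1} (rs A) (Wb A W) Q :=
  ((ptRed_holds ℂ _ A.valuation W (cin h) h.unit).2.1 (kk A) (rs A) (Wb A W) rs_one
    (fun a b ha hb => rs_add ((A.valuation_le_one_iff _).1 ha) ((A.valuation_le_one_iff _).1 hb))
    (fun a b ha hb => rs_mul ((A.valuation_le_one_iff _).1 ha) ((A.valuation_le_one_iff _).1 hb))
    (fun a ha => rs_eq_zero ((A.valuation_le_one_iff _).1 ha)) rfl rfl rfl rfl rfl).2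

/-- the reduction -/
def rd : ℂ →+ (Wb A W).toAffine.Point :=
  (AddMonoidHom.mk' (ptRed {z | A.valuation z ≤ 1} (rs A) (Wb A W)) (red h).2).comp
    (AddMonoidHom.mk' (exf Λ W) (exf_add h))

theorem rd_of {z : ℂ} (hz : ¬ Sk A Λ W z) :
    ∃ k, rd h z = .some (xb A Λ W z) (rs A (yy Λ W z)) k := by
  obtain ⟨h1, h2⟩ := not_or.1 hz
  have h3 := (A.valuation_le_one_iff _).2 (not_not.1 h2)
  refine ⟨(red h).1 _ _ (ns h h1).1 h3, ?_⟩
  show ptRed _ _ _ (exf Λ W z) = _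
  rw [exf_of h h1]
  exact (if_pos h3).trans (pt_of _)

theorem rd_eq_zero {z : ℂ} : rd h z = 0 ↔ Sk A Λ W z := by
  refine ⟨fun e => by_contra fun hz => ?_, fun e => ?_⟩
  · obtain ⟨k, e'⟩ := rd_of h hz
    exact Point.some_ne_zero _ (e'.symm.trans e)
  show ptRed _ _ _ (exf Λ W z) = _
  by_cases hz : z ∈ Λ
  · rw [exf, if_pos hz]
    rfl
  · rw [exf_of h hz]
    exact if_neg (mt (A.valuation_le_one_iff _).1 (e.resolve_left hz))

/-- the kernel of the reduction -/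
def SK : AddSubgroup ℂ := (rd h).ker

theorem mem_SK {z : ℂ} : z ∈ SK h ↔ Sk A Λ W z := rd_eq_zero h

theorem xb_eq {z w : ℂ} (hz : ¬ Sk A Λ W z) (hw : ¬ Sk A Λ W w) :
    xb A Λ W z = xb A Λ W w ↔ Sk A Λ W (z - w) ∨ Sk A Λ W (z + w) := by
  obtain ⟨k, e⟩ := rd_of h hz
  obtain ⟨k', e'⟩ := rd_of h hw
  rw [← rd_eq_zero h, ← rd_eq_zero h, map_sub, map_add, sub_eq_zero, add_eq_zero_iff_eq_neg, e, e',
    Point.neg_some, Point.some.injEq, Point.some.injEq, ← and_or_left]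
  exact ⟨fun x => ⟨x, Y_eq_of_X_eq k.1 k'.1 x⟩, And.left⟩

theorem SK_ne : SK h ≠ ⊤ := fun e => by
  obtain ⟨y, hy⟩ := IsAlgClosed.exists_pow_nat_eq
    (4 * (W.b₂ / 12) ^ 3 - g2 Λ * (W.b₂ / 12) - g3 Λ) (n := 2) (by decide)
  obtain ⟨z, h1, h2, -⟩ := h.lat.surj hy
  refine ((mem_SK h).1 (e ▸ AddSubgroup.mem_top z)).elim h1 fun k => k ?_
  rw [xx, h2, sub_self]
  exact zero_mem _

end Gm

open Gm

theorem gm0 : GM0 := fun A Λ W h =>
  ⟨fun z w hz hw => (mem_SK h).1 (sub_mem ((mem_SK h).2 hz) ((mem_SK h).2 hw)),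
    fun z w => xb_eq h⟩

end Vale.Agent.P004K
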